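import Vale.Agent.N093.Mark
import Vale.Agent.P093U41.Defs

/-!
# P093: comparison of matrices of functions passes to subsystems
-/

set_option linter.all false

open Set Filter Topology Vale.Agent.P093 Vale.Agent.P093.Hom
open scoped ENNReal ComplexOrder

namespace Vale.Agent.N093

/-- the conclusion of the comparison of `diag g` with `β` along orbits -/
def Ker {X J : Type*} [TopologicalSpace X] [Fintype J] (h : X ≃ₜ X) {n : ℕ}
    (g : Fin n → C(X, ℝ)) (β : J → J → C(X, ℂ)) : Prop :=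
  ∃ (R : ℕ) (K : J → Fin n → ℤ → ℤ → C(X, ℂ)), ∀ (x0 : X) (I : Finset ℤ)
    (z : ℤ → Fin n → ℂ), (∀ j ∈ I, ∀ l, z j l ≠ 0 → 3 / 4 ≤ g l ((h ^ j) x0)) →
    (∀ (i : ℤ) (κ : J), ∑ κ', β κ κ' ((h ^ i) x0) *
      (∑ l, ∑ j ∈ I, if i ∈ Finset.Icc (j - (R:ℤ)) (j + R) then K κ' l i j x0 * z j l else 0)
        = 0) →
    ∀ j ∈ I, ∀ l, z j l = 0

/-- comparison with `β` up to the bound `r` -/
def Core {X J : Type*} [TopologicalSpace X] [Fintype J] (h : X ≃ₜ X) (r : ℝ)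
    (β : J → J → C(X, ℂ)) : Prop :=
  ∀ (n : ℕ) (g G : Fin n → C(X, ℝ)) (r' : ℝ) (N₀ : ℕ), 0 < N₀ → r < r' →
    (∀ l x, 0 ≤ g l x) → (∀ l x, g l x ≤ 1) → (∀ l x, 0 ≤ G l x) →
    (∀ l x, g l x ≠ 0 → 1 ≤ G l x) →
    (∀ x, ∑ j ∈ Finset.range N₀, ∑ l, G l ((h ^ (j : ℤ)) x) + r' * N₀ ≤
      ∑ j ∈ Finset.range N₀, ∑ k, (β k k ((h ^ (j : ℤ)) x)).re) → Ker h g β

/-- `0 ≤ β ≤ 1` -/
def Pos {X J : Type*} [TopologicalSpace X] [DecidableEq J] (β : J → J → C(X, ℂ)) : Prop :=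
  (∀ x, (Matrix.of fun k k' => β k k' x).PosSemidef) ∧
    ∀ x, (1 - Matrix.of fun k k' => β k k' x).PosSemidef

variable {X : Type*} [TopologicalSpace X] {h : X ≃ₜ X}

theorem Pos.reindex {J J' : Type*} [DecidableEq J] [DecidableEq J'] {β : J → J → C(X, ℂ)}
    (hβ : Pos β) (E : J' ≃ J) : Pos fun k k' => β (E k) (E k') := by
  refine ⟨fun x => (hβ.1 x).submatrix E, fun x => ?_⟩
  have h2 : (1 - Matrix.of fun k k' => β (E k) (E k') x) =
      (1 - Matrix.of fun k k' => β k k' x).submatrix E E := by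
    ext i j
    simp [Matrix.one_apply]
  rw [h2]
  exact (hβ.2 x).submatrix E

theorem Core.reindex {J J' : Type*} [Fintype J] [Fintype J'] {β : J → J → C(X, ℂ)} {r : ℝ}
    (E : J' ≃ J) (hβ : Core h r fun k k' => β (E k) (E k')) : Core h r β := by
  intro n g G r' N₀ h1 h2 h3 h4 h5 h6 h7
  obtain ⟨R, K, hK⟩ := hβ n g G r' N₀ h1 h2 h3 h4 h5 h6 fun x => by
    refine (h7 x).trans (le_of_eq (Finset.sum_congr rfl fun j _ => ?_))
    exact (Equiv.sum_comp E fun k => (β k k ((h ^ (j : ℤ)) x)).re).symm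
  refine ⟨R, fun k => K (E.symm k), fun x0 I z hz hk => hK x0 I z hz fun i κ => ?_⟩
  have h8 := hk i (E κ)
  rw [← Equiv.sum_comp E] at h8
  simp only [Equiv.symm_apply_apply] at h8
  exact h8

set_option backward.isDefEq.respectTransparency false in
theorem core_amb [CompactSpace X] [T2Space X] {A : Type*} [CStarAlgebra A] [PartialOrder A]
    [StarOrderedRing A] {π : C(X, ℂ) →⋆ₐ[ℂ] A} {u : A} (c : P093U.IsCovariant h π u)
    (Λ : A →⋆ₐ[ℂ] CrossedProduct h) (hΛ : ∀ f, Λ (π f) = piHom h f) {r : ℝ}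
    (hr : IsComparisonBound A r) {J : Type*} [Fintype J] [DecidableEq J] {β : J → J → C(X, ℂ)}
    (hβ : Pos β) : Core h r β := by
  refine Core.reindex (Fintype.equivFin J).symm ?_
  obtain ⟨hβ, hβ1⟩ := hβ.reindex (Fintype.equivFin J).symm
  generalize (fun k k' => β ((Fintype.equivFin J).symm k) ((Fintype.equivFin J).symm k')) = γ at *
  intro n g G r' N₀ hN₀ hr' hg0 hg1 hG0 hG hav
  have hle : CuntzLE (diagM π (fun l => cf (g l))) (fullM π γ) := by
    refine hr.2 n _ _ _ (diagM_nonneg π g hg0) (fullM_nonneg π γ hβ) fun τ => ?_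
    have h1 := dTau_diag_le' π τ g G hg0 hg1 hG0 hG
    have h2 := traceEval_le_dTau τ (fullM_nonneg π γ hβ) (fullM_le_one π γ hβ1)
    rw [traceEval_full' π τ γ hβ] at h2
    have h3 := trace_average' π h c.1 c.2 c.3 τ (∑ l, G l) (trFun γ) r' N₀ hN₀ (fun x => by
      have := hav x
      simp only [ContinuousMap.sum_apply, trFun_apply]
      exact this)
    linarith
  exact core h γ g (cuntzLE_map Λ hΛ _ γ hle)

theorem psd_blocks {J J' : Type*} [Fintype J] [Fintype J'] {B : Matrix J J ℂ} {D : Matrix J' J' ℂ}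
    (hB : B.PosSemidef) (hD : D.PosSemidef) : (Matrix.fromBlocks B 0 0 D).PosSemidef := by
  refine Matrix.PosSemidef.of_dotProduct_mulVec_nonneg
    (hB.isHermitian.fromBlocks Matrix.conjTranspose_zero hD.isHermitian) fun v => ?_
  rw [Matrix.fromBlocks_mulVec, Matrix.zero_mulVec, Matrix.zero_mulVec, add_zero, zero_add,
    dotProduct, Fintype.sum_sum_type]
  exact add_nonneg (hB.dotProduct_mulVec_nonneg (v ∘ Sum.inl))
    (hD.dotProduct_mulVec_nonneg (v ∘ Sum.inr))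

/-- `β ⊕ e ⊕ … ⊕ e` -/
noncomputable def blocks {J : Type*} (β : J → J → C(X, ℂ)) (e : C(X, ℝ)) (q : ℕ) :
    J ⊕ Fin q → J ⊕ Fin q → C(X, ℂ)
  | Sum.inl a, Sum.inl b => β a b
  | Sum.inr a, Sum.inr b => if a = b then ⟨fun x => (e x : ℂ), by fun_prop⟩ else 0
  | Sum.inl _, Sum.inr _ => 0
  | Sum.inr _, Sum.inl _ => 0

theorem blocks_eq {J : Type*} (β : J → J → C(X, ℂ)) (e : C(X, ℝ)) (q : ℕ) (x : X) :
    (Matrix.of fun k k' => blocks β e q k k' x) = Matrix.fromBlocks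
      (Matrix.of fun k k' => β k k' x) 0 0 (Matrix.diagonal fun _ => (e x : ℂ)) := by
  ext (a | a) (b | b)
  · rfl
  · rfl
  · rfl
  · by_cases hab : a = b <;> simp [blocks, hab, Matrix.diagonal_apply]

theorem Pos.blocks {J : Type*} [Fintype J] [DecidableEq J] {β : J → J → C(X, ℂ)} (hβ : Pos β)
    {e : C(X, ℝ)} (h0 : ∀ x, 0 ≤ e x) (h1 : ∀ x, e x ≤ 1) (q : ℕ) : Pos (blocks β e q) := by
  refine ⟨fun x => ?_, fun x => ?_⟩
  · rw [blocks_eq]
    exact psd_blocks (hβ.1 x) (Matrix.PosSemidef.diagonal fun _ => Complex.zero_le_real.2 (h0 x))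
  · have e1 : (1 : Matrix (J ⊕ Fin q) (J ⊕ Fin q) ℂ) - Matrix.fromBlocks
        (Matrix.of fun k k' => β k k' x) 0 0 (Matrix.diagonal fun _ => (e x : ℂ)) =
        Matrix.fromBlocks (1 - Matrix.of fun k k' => β k k' x) 0 0
          (Matrix.diagonal fun _ => ((1 - e x : ℝ) : ℂ)) := by
      ext (a | a) (b | b)
      · simp [Matrix.one_apply]
      · simp
      · simp
      · by_cases hab : a = b <;> simp [hab, Matrix.diagonal_apply, Matrix.one_apply]
    rw [blocks_eq, e1]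
    exact psd_blocks (hβ.2 x)
      (Matrix.PosSemidef.diagonal fun _ => Complex.zero_le_real.2 (sub_nonneg.2 (h1 x)))

theorem blocks_trace {J : Type*} [Fintype J] (β : J → J → C(X, ℂ)) (e : C(X, ℝ)) (q : ℕ) (x : X) :
    ∑ k, (blocks β e q k k x).re = ∑ k, (β k k x).re + q * e x := by
  rw [Fintype.sum_sum_type]
  simp [blocks]

variable {Y : Type*} [TopologicalSpace Y] {k : Y ≃ₜ Y}

theorem semi_zpow {ι : Y → X} (hc : ∀ y, ι (k y) = h (ι y)) (j : ℤ) (y : Y) :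
    ι ((k ^ j) y) = (h ^ j) (ι y) := by
  induction j using Int.induction_on generalizing y with
  | zero => rfl
  | succ j ih =>
    rw [← zpow_app, ← zpow_app, zpow_one, zpow_one, ih, hc]
  | pred j ih =>
    have e1 : ι ((k ^ (-1 : ℤ)) y) = (h ^ (-1 : ℤ)) (ι y) := by
      apply h.injective
      rw [← hc, zpow_neg_one, zpow_neg_one]
      exact (congrArg ι (k.apply_symm_apply y)).trans (h.apply_symm_apply _).symm
    rw [sub_eq_add_neg, ← zpow_app, ← zpow_app, ih, e1]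

/-- comparison passes to subsystems -/
theorem core_sub [CompactSpace X] [T2Space X] {ι : C(Y, X)} (hι : IsClosedEmbedding ι)
    (hc : ∀ y, ι (k y) = h (ι y)) {r : ℝ} {J : Type*} [Fintype J] [DecidableEq J]
    {β : J → J → C(X, ℂ)} (hβ : Pos β)
    (H : ∀ (q : ℕ) (γ : J ⊕ Fin q → J ⊕ Fin q → C(X, ℂ)), Pos γ → Core h r γ) :
    Core k r fun a b => (β a b).comp ι := by
  intro n g G r' N₀ hN₀ hr' hg0 hg1 hG0 hG hav
  obtain ⟨η, hη, hη'⟩ : ∃ η : ℝ, 0 < η ∧ r + (n + 2) * η = r' :=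
    ⟨(r' - r) / (n + 2), div_pos (by linarith) (by positivity), by field_simp; ring⟩
  have x1 := fun l => (g l).exists_extension_forall_mem_of_isClosedEmbedding (t := Icc 0 1)
    (fun y => ⟨hg0 l y, hg1 l y⟩) ⟨0, le_rfl, zero_le_one⟩ hι
  have x2 := fun l => (G l).exists_extension_forall_mem_of_isClosedEmbedding (t := Ici 0)
    (hG0 l) ⟨0, mem_Ici.2 le_rfl⟩ hι
  choose g₁ a1 a2 using x1
  choose G₁ b1 b2 using x2
  replace a2 : ∀ l y, g₁ l (ι y) = g l y := fun l y => congrFun (a2 l) y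
  replace b2 : ∀ l y, G₁ l (ι y) = G l y := fun l y => congrFun (b2 l) y
  obtain ⟨g₂, hg₂⟩ : ∃ g₂ : Fin n → C(X, ℝ), ∀ l x,
      g₂ l x = min (g₁ l x) (max 0 ((G₁ l x - (1 - η)) / η)) :=
    ⟨fun l => ⟨fun x => min (g₁ l x) (max 0 ((G₁ l x - (1 - η)) / η)), by fun_prop⟩,
      fun _ _ => rfl⟩
  obtain ⟨G₂, hG₂⟩ : ∃ G₂ : Fin n → C(X, ℝ), ∀ l x, G₂ l x = G₁ l x + η :=
    ⟨fun l => ⟨fun x => G₁ l x + η, by fun_prop⟩, fun _ _ => rfl⟩
  have c1 : ∀ l y, g₂ l (ι y) = g l y := by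
    intro l y
    rw [hg₂, a2, b2]
    refine min_eq_left ?_
    by_cases h0 : g l y = 0
    · rw [h0]
      exact le_max_left _ _
    · refine (hg1 l y).trans (le_max_of_le_right ?_)
      rw [le_div_iff₀ hη]
      linarith [hG l y h0]
  obtain ⟨F, hF⟩ : ∃ F : C(X, ℝ), ∀ x, F x =
      ∑ j ∈ Finset.range N₀, ∑ a, (β a a ((h ^ (j : ℤ)) x)).re -
        (∑ j ∈ Finset.range N₀, ∑ l, G₂ l ((h ^ (j : ℤ)) x) + (r + η) * N₀) := by
    refine ⟨⟨_, Continuous.sub ?_ (Continuous.add ?_ continuous_const)⟩, fun _ => rfl⟩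
    · exact continuous_finsetSum _ fun j _ => continuous_finsetSum _ fun a _ =>
        Complex.continuous_re.comp ((β a a).continuous.comp (h ^ (j : ℤ)).continuous)
    · exact continuous_finsetSum _ fun j _ => continuous_finsetSum _ fun l _ =>
        (G₂ l).continuous.comp (h ^ (j : ℤ)).continuous
  have hFY : ∀ y, 0 < F (ι y) := by
    intro y
    have h1 := hav y
    have h2 : (0 : ℝ) < N₀ := by exact_mod_cast hN₀
    rw [hF]
    simp only [← semi_zpow hc, hG₂, b2, Finset.sum_add_distrib, Finset.sum_const,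
      Finset.card_univ, Fintype.card_fin, Finset.card_range, nsmul_eq_mul]
    simp only [ContinuousMap.comp_apply] at h1
    rw [← hη'] at h1
    nlinarith [mul_pos hη h2]
  obtain ⟨e, e0, e1, e2⟩ := exists_continuous_zero_one_of_isClosed hι.isClosed_range
    (isClosed_le F.continuous continuous_const : IsClosed {x | F x ≤ 0})
    (Set.disjoint_left.2 (by rintro _ ⟨y, rfl⟩ hy; exact (hFY y).not_ge hy))
  obtain ⟨q, hq⟩ := exists_nat_ge ‖F‖
  obtain ⟨R, K, hK⟩ := H q _ (hβ.blocks (fun x => (e2 x).1) (fun x => (e2 x).2) q) n g₂ G₂ (r + η)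
    N₀ hN₀ (by linarith) (fun l x => by rw [hg₂]; exact le_min (a1 l x).1 (le_max_left _ _))
    (fun l x => by rw [hg₂]; exact (min_le_left _ _).trans (a1 l x).2)
    (fun l x => by rw [hG₂]; exact add_nonneg (b1 l x) hη.le)
    (fun l x hx => by
      rw [hG₂]
      by_contra hn
      refine hx ?_
      rw [hg₂, max_eq_left (div_nonpos_of_nonpos_of_nonneg (by linarith) hη.le)]
      exact min_eq_right (a1 l x).1)
    (fun x => by
      simp only [blocks_trace, Finset.sum_add_distrib]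
      have h1 := hF x
      have h2 : (q : ℝ) * e x ≤ ∑ j ∈ Finset.range N₀, q * e ((h ^ (j : ℤ)) x) :=
        Finset.single_le_sum (f := fun j : ℕ => (q : ℝ) * e ((h ^ (j : ℤ)) x))
          (fun j _ => mul_nonneg (Nat.cast_nonneg _) (e2 _).1) (Finset.mem_range.2 hN₀)
      rcases le_or_gt (F x) 0 with h3 | h3
      · have h4 : e x = 1 := e1 h3
        have h5 := (abs_le.1 (F.norm_coe_le_norm x)).1
        rw [h4] at h2
        linarith
      · have h4 : 0 ≤ (q : ℝ) * e x := mul_nonneg (Nat.cast_nonneg _) (e2 _).1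
        linarith)
  refine ⟨R, fun a l i j => (K (Sum.inl a) l i j).comp ι, fun y I z hz hk =>
    hK (ι y) I z (fun j hj l h0 => ?_) fun i κ => ?_⟩
  · rw [← semi_zpow hc, c1]
    exact hz j hj l h0
  · rw [← semi_zpow hc, Fintype.sum_sum_type]
    rcases κ with a | a
    · have h1 : ∀ b, blocks β e q (Sum.inl a) (Sum.inr b) (ι ((k ^ i) y)) = 0 := fun _ => rfl
      simp only [h1, zero_mul, Finset.sum_const_zero, add_zero]
      exact hk i a
    · have h1 : ∀ b, blocks β e q (Sum.inr a) (Sum.inl b) (ι ((k ^ i) y)) = 0 := fun _ => rfl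
      have h2 : ∀ b, blocks β e q (Sum.inr a) (Sum.inr b) (ι ((k ^ i) y)) = 0 := by
        intro b
        have h3 : e (ι ((k ^ i) y)) = 0 := e0 ⟨_, rfl⟩
        by_cases hab : a = b <;> simp [blocks, hab, h3]
      simp only [h1, h2, zero_mul, Finset.sum_const_zero, add_zero]

/-- the Hopf blocks can be compared -/
def Good (k : Y ≃ₜ Y) (r : ℝ) : Prop :=
  ∀ (κ t : ℕ) (ω : C(Y, ℝ)), (∀ x, 0 ≤ ω x) → (∀ x, ω x ≤ 1) → ∀ ψ : Fin t → ℕ → C(Y, ℝ),
    ∃ β : Fin t × Fin κ × Fin 2 → Fin t × Fin κ × Fin 2 → C(Y, ℂ),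
      (∀ (m : ℕ) (E : Fin m ≃ Fin t × Fin κ × Fin 2), Core k r fun a b => β (E a) (E b)) ∧
      (∀ x, ω x = 1 → (t * κ : ℝ) ≤ ∑ k, (β k k x).re) ∧
      (∀ x, 0 ≤ ∑ k, (β k k x).re) ∧
      (∀ x i j, β i j x ≠ 0 → 3 / 4 < ω x) ∧
      ∀ x (w : Fin t × Fin κ × Fin 2 → ℂ) (G : Fin t) (k : Fin κ),
        rho k / 2 ≤ rad (nF (fun j x => ψ G j x - 1 / 2) rho k)
          (fun x => ψ G (2 * k + 1) x - 1 / 2) (fun x => ψ G (2 * k + 2) x - 1 / 2) x →
        HopfRel (nF (fun j x => ψ G j x - 1 / 2) rho k x)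
          (ψ G (2 * k + 1) x - 1 / 2) (ψ G (2 * k + 2) x - 1 / 2)
          (∑ i, β (G, k, 0) i x * w i) (∑ i, β (G, k, 1) i x * w i)

theorem good_sub [CompactSpace X] [T2Space X] {ι : C(Y, X)} (hι : IsClosedEmbedding ι)
    (hc : ∀ y, ι (k y) = h (ι y)) {r : ℝ}
    (H : ∀ (m q : ℕ) (γ : Fin m ⊕ Fin q → Fin m ⊕ Fin q → C(X, ℂ)), Pos γ → Core h r γ) :
    Good k r := by
  intro κ t ω h0 h1 ψ
  obtain ⟨ω₁, a1, a2⟩ := ω.exists_extension_forall_mem_of_isClosedEmbedding (t := Icc 0 1)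
    (fun y => ⟨h0 y, h1 y⟩) ⟨0, le_rfl, zero_le_one⟩ hι
  have x2 := fun G j => (ψ G j).exists_extension' hι
  choose ψ₁ b2 using x2
  replace a2 : ∀ y, ω₁ (ι y) = ω y := fun y => congrFun a2 y
  replace b2 : ∀ G j y, ψ₁ G j (ι y) = ψ G j y := fun G j y => congrFun (b2 G j) y
  obtain ⟨β, p1, p2, p3, p4, p5, p6⟩ :=
    exists_b (κ := κ) ω₁ (fun x => (a1 x).1) (fun x => (a1 x).2) ψ₁
  refine ⟨fun a b => (β a b).comp ι, fun m E => core_sub hι hc (Pos.reindex ⟨p1, p2⟩ E) (H m),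
    fun y hy => p3 _ (by rw [a2, hy]), fun y => p4 _, fun y i j hy => a2 y ▸ p5 _ i j hy,
    fun y w G l hl => ?_⟩
  have hnF := dc_nF_congr (fun j x => ψ₁ G j x - 1 / 2) (fun j x => ψ G j x - 1 / 2) rho (ι y) y
    (fun j => by simp only [b2]) l
  have h4 := p6 (ι y) w G l
  simp only [rad] at hl h4
  rw [hnF, b2, b2] at h4
  exact h4 hl

end Vale.Agent.N093
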