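import Vale.Agent.P093.MathlibUsed

/-!
# P093: the crossed product, the radius of comparison, the mean dimension, markers
-/

open Filter Topology Set
open scoped ENNReal ComplexOrder

namespace Vale.Agent.N093

universe u

section Crossed

variable {X : Type u} [TopologicalSpace X] [CompactSpace X]

/-- A covariant pair: a unital star homomorphism `π : C(X) → B` and a unitary `U` with
`U π(f) U* = π(f ∘ h⁻¹)`. -/
def IsCov (h : X ≃ₜ X) {B : Type u} [CStarAlgebra B] (π : C(X, ℂ) →⋆ₐ[ℂ] B) (U : B) : Prop :=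
  U ∈ unitary B ∧ ∀ f : C(X, ℂ), U * π f * star U = π (f.comp (h.symm : C(X, X)))

/-- `A` is the crossed product `C(X) ⋊_h ℤ`: it has a covariant pair through which every covariant
pair factors by exactly one unital star homomorphism. -/
def IsCrossed (h : X ≃ₜ X) (A : Type u) [CStarAlgebra A] : Prop :=
  ∃ (π : C(X, ℂ) →⋆ₐ[ℂ] A) (U : A), IsCov h π U ∧
    ∀ (B : Type u) [CStarAlgebra B] (π' : C(X, ℂ) →⋆ₐ[ℂ] B) (U' : B), IsCov h π' U' →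
      ∃! φ : A →⋆ₐ[ℂ] B, (∀ f, φ (π f) = π' f) ∧ φ U = U'

end Crossed

section Comparison

variable {A : Type u} [CStarAlgebra A] [PartialOrder A] [StarOrderedRing A]

/-- Tracial states. -/
def IsTrace (τ : A →ₗ[ℂ] ℂ) : Prop :=
  τ 1 = 1 ∧ (∀ a, 0 ≤ τ (star a * a)) ∧ ∀ a b, τ (a * b) = τ (b * a)

set_option backward.isDefEq.respectTransparency false in
/-- `(τ ⊗ Tr)(a^{1/m})` for `a ∈ M_n(A)`, with `Tr` the unnormalized trace. -/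
noncomputable def rootTr (τ : A →ₗ[ℂ] ℂ) {n : ℕ} (a : CStarMatrix (Fin n) (Fin n) A) (m : ℕ) : ℝ :=
  (∑ i, τ (cfc (fun t : ℝ => t ^ (1 / (m : ℝ))) a i i)).re

/-- `d_τ(a) = lim_m (τ ⊗ Tr)(a^{1/m})`. -/
noncomputable def dT (τ : A →ₗ[ℂ] ℂ) {n : ℕ} (a : CStarMatrix (Fin n) (Fin n) A) : ℝ :=
  limUnder atTop (rootTr τ a)

/-- The upper left corner inclusion `M_n(A) → M_q(A)`, `n ≤ q`. -/
noncomputable def corn {n : ℕ} (q : ℕ) (a : CStarMatrix (Fin n) (Fin n) A) :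
    CStarMatrix (Fin q) (Fin q) A :=
  CStarMatrix.ofMatrix fun i j => if c : i.1 < n ∧ j.1 < n then a ⟨i.1, c.1⟩ ⟨j.1, c.2⟩ else 0

/-- Cuntz subequivalence in `M_∞(A)`, for `a ∈ M_n(A)` and `b ∈ M_m(A)`: there are
`x_k ∈ M_{q_k}(A) ⊆ M_∞(A)` with `x_k* b x_k → a` in norm. -/
def Cuntz {n m : ℕ} (a : CStarMatrix (Fin n) (Fin n) A) (b : CStarMatrix (Fin m) (Fin m) A) :
    Prop :=
  ∃ (q : ℕ → ℕ) (x : ∀ k, CStarMatrix (Fin (q k)) (Fin (q k)) A), (∀ k, n ≤ q k ∧ m ≤ q k) ∧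
    Tendsto (fun k => ‖star (x k) * corn (q k) b * x k - corn (q k) a‖) atTop (𝓝 0)

variable (A)

/-- `r ≥ 0` is a comparison bound for `A`. -/
def Bound (r : ℝ) : Prop :=
  0 ≤ r ∧ ∀ (n m : ℕ) (a : CStarMatrix (Fin n) (Fin n) A) (b : CStarMatrix (Fin m) (Fin m) A),
    0 ≤ a → 0 ≤ b → (∀ τ, IsTrace τ → dT τ a + r < dT τ b) → Cuntz a b

/-- The radius of comparison `rc(A) ∈ [0,∞]`, the infimum of the comparison bounds. -/
noncomputable def radius : ℝ≥0∞ := ⨅ r : {r : ℝ // Bound A r}, ENNReal.ofReal r.1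

end Comparison

section Dynamics

variable {X : Type*} [TopologicalSpace X]

/-- Finite open covers. -/
def IsCover (𝒱 : Set (Set X)) : Prop := 𝒱.Finite ∧ (∀ V ∈ 𝒱, IsOpen V) ∧ ⋃₀ 𝒱 = univ

/-- `D(𝒰)`: the least order of a finite open refinement of `𝒰`. -/
noncomputable def covD (𝒰 : Set (Set X)) : ℕ :=
  sInf {d : ℕ | ∃ 𝒱 : Set (Set X), IsCover 𝒱 ∧ (∀ V ∈ 𝒱, ∃ U ∈ 𝒰, V ⊆ U) ∧
    ∀ S ⊆ 𝒱, (⋂₀ S).Nonempty → S.encard ≤ d + 1}

/-- `𝒰^{[0,N)} = ⋁_{j < N} h^{-j} 𝒰`. -/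
def join (h : X ≃ₜ X) (𝒰 : Set (Set X)) (N : ℕ) : Set (Set X) :=
  {W | ∃ f : ℕ → Set X, (∀ j, f j ∈ 𝒰) ∧ W = ⋂ j ∈ Finset.range N, (⇑(h ^ j)) ⁻¹' (f j)}

/-- `lim_N D(𝒰^{[0,N)}) / N`. -/
noncomputable def rate (h : X ≃ₜ X) (𝒰 : Set (Set X)) : ℝ≥0∞ :=
  limUnder atTop fun N : ℕ => (covD (join h 𝒰 N) : ℝ≥0∞) / N

/-- The mean dimension. -/
noncomputable def mdim (h : X ≃ₜ X) : ℝ≥0∞ := ⨆ 𝒰 : {𝒰 : Set (Set X) // IsCover 𝒰}, rate h 𝒰.1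

/-- `h` is minimal: all orbits are dense. -/
def IsMin (h : X ≃ₜ X) : Prop := ∀ x : X, Dense (range fun n : ℤ => (h ^ n) x)

/-- The marker property: for every `n` there is an open set `V` which is disjoint from
`h⁻¹ V, …, h^{-(n-1)} V` and is visited by every orbit. -/
def Markers (h : X ≃ₜ X) : Prop :=
  ∀ n : ℕ, ∃ V : Set X, IsOpen V ∧
    (∀ k : ℕ, 0 < k → k < n → ∀ x ∈ V, (h ^ k) x ∉ V) ∧ ∀ x, ∃ k : ℤ, (h ^ k) x ∈ V

/-- `h` has no periodic point. -/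
def Aperiodic (h : X ≃ₜ X) : Prop := ∀ k : ℕ, 0 < k → ∀ x, (h ^ k) x ≠ x

/-- `M` is a minimal set of `h`: minimal among the nonempty closed invariant sets. -/
def IsMinimalSet (h : X ≃ₜ X) (M : Set X) : Prop :=
  Minimal (fun N : Set X => N.Nonempty ∧ IsClosed N ∧ h ⁻¹' N = N) M

end Dynamics

end Vale.Agent.N093
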