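import Vale.Agent.N093.Core
import Vale.Agent.P093.Final.WithU

/-!
# P093, lower bound for homeomorphisms with markers
-/

set_option linter.all false

open Set Filter Topology TopologicalSpace Vale.Agent.P093 Vale.Agent.P093.Hom Vale.Agent.P093.Final
open scoped ENNReal ComplexOrder
open Vale.Agent.P251.St (Space)

namespace Vale.Agent.N093

universe u v

open scoped Classical in
theorem exists_familyM {X : Type*} [MetricSpace X] [CompactSpace X] {h : X ≃ₜ X}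
    (hmin : Markers h) {r : ℝ} (hr : Good h r)
    {κ t L : ℕ} (ω : C(X, ℝ)) (hω0 : ∀ x, 0 ≤ ω x) (hω1 : ∀ x, ω x ≤ 1)
    {ε : ℝ} (hcount : ∃ C : ℝ, ∀ x (N : ℕ), (1 - ε) * N / L - C ≤
      ((Finset.range N).filter fun i : ℕ => ω ((h ^ (i : ℤ)) x) = 1).card)
    (ψ : Fin t → ℕ → C(X, ℝ)) {s : ℝ} (hs0 : 0 ≤ s) (hs : s + r < κ * t * (1 - ε) / L) :
    ∃ (R : ℕ) (C : ℝ), ∀ (N p : ℕ), (p : ℝ) ≤ s * N - C →
      ∃ F : Fin (N + 2 * R) → Fin t → Fin κ → Fin 2 → X → (Fin p → ℂ) →ₗ[ℂ] ℂ,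
        (∀ i G k e, Continuous fun z : X × (Fin p → ℂ) => F i G k e z.1 z.2) ∧
        (∀ x q, q ≠ 0 → ∃ i G k e, F i G k e x q ≠ 0) ∧
        (∀ (i : Fin (N + 2 * R)) G k e x q, F i G k e x q ≠ 0 →
          3 / 4 < ω ((h ^ ((i : ℕ) - (R : ℤ) : ℤ)) x)) ∧
        ∀ (i : Fin (N + 2 * R)) G (k : Fin κ) x q, let x' := (h ^ ((i : ℕ) - (R : ℤ) : ℤ)) x
          rho k / 2 ≤ rad (nF (fun j x => ψ G j x - 1 / 2) rho k)
            (fun x => ψ G (2 * k + 1) x - 1 / 2) (fun x => ψ G (2 * k + 2) x - 1 / 2) x' →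
          HopfRel (nF (fun j x => ψ G j x - 1 / 2) rho k x')
            (ψ G (2 * k + 1) x' - 1 / 2) (ψ G (2 * k + 2) x' - 1 / 2)
            (F i G k 0 x q) (F i G k 1 x q) := by
  obtain ⟨C₀, hC₀⟩ := hcount
  obtain ⟨M, hM⟩ : ∃ M : ℝ, M = κ * t * (1 - ε) / L := ⟨_, rfl⟩
  obtain ⟨δ, hδ⟩ : ∃ δ : ℝ, δ = (M - s - r) / 3 := ⟨_, rfl⟩
  have hδ0 : 0 < δ := by rw [hδ, hM]; linarith
  obtain ⟨n, hn⟩ := exists_nat_ge (s + δ + 1)
  obtain ⟨g, G, hg0, hg1, hG0, hG, C₁, hC₁⟩ := H193.exists_scalarM h hmin.has hs0 (s' := s + δ)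
    (by linarith) (n := n) (by exact_mod_cast (by linarith : (1 : ℝ) ≤ n)) (by linarith)
  obtain ⟨β', hβ'1, hβ'3, hβ'4, hβ'5, hβ'6⟩ := hr κ t ω hω0 hω1 ψ
  obtain ⟨m, E, -⟩ : ∃ (m : ℕ) (E : Fin t × Fin κ × Fin 2 ≃ Fin m), True :=
    ⟨_, Fintype.equivFin _, trivial⟩
  let β : Fin m → Fin m → C(X, ℂ) := fun k k' => β' (E.symm k) (E.symm k')
  obtain ⟨N₀, hN₀⟩ := exists_nat_gt ((C₁ + t * κ * C₀) / δ)
  have hN₀' : C₁ + t * κ * C₀ ≤ δ * (N₀ + 1 : ℕ) := by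
    rw [div_lt_iff₀ hδ0] at hN₀
    push_cast
    nlinarith
  have b3 : ∀ x, ∑ j ∈ Finset.range (N₀ + 1), ∑ l, G l ((h ^ (j : ℤ)) x) +
      (r + δ) * (N₀ + 1 : ℕ) ≤
      ∑ j ∈ Finset.range (N₀ + 1), ∑ k, (β k k ((h ^ (j : ℤ)) x)).re := by
    intro x
    have h1 := (hC₁ x (N₀ + 1)).1
    have h2 := hC₀ x (N₀ + 1)
    have h3 : ∀ j : ℕ, (if ω ((h ^ (j : ℤ)) x) = 1 then (t * κ : ℝ) else 0) ≤
        ∑ k, (β k k ((h ^ (j : ℤ)) x)).re := by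
      intro j
      have e : ∑ k, (β k k ((h ^ (j : ℤ)) x)).re = ∑ k, (β' k k ((h ^ (j : ℤ)) x)).re :=
        Equiv.sum_comp E.symm fun k => (β' k k ((h ^ (j : ℤ)) x)).re
      rw [e]
      split_ifs with h4
      · exact hβ'3 _ h4
      · exact hβ'4 _
    have h5 := Finset.sum_le_sum (s := Finset.range (N₀ + 1)) fun j _ => h3 j
    rw [← Finset.sum_filter, Finset.sum_const, nsmul_eq_mul] at h5
    have h6 : (t * κ : ℝ) * ((1 - ε) * (N₀ + 1 : ℕ) / L - C₀) ≤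
        (((Finset.range (N₀ + 1)).filter fun i : ℕ => ω ((h ^ (i : ℤ)) x) = 1).card : ℝ) *
          (t * κ) := by
      rw [mul_comm]
      exact mul_le_mul_of_nonneg_right h2 (by positivity)
    have h7 : (t * κ : ℝ) * ((1 - ε) * (N₀ + 1 : ℕ) / L - C₀) =
        M * (N₀ + 1 : ℕ) - t * κ * C₀ := by
      rw [hM]; ring
    have h8 : M = s + r + 3 * δ := by rw [hδ]; ring
    rw [h7, h8] at h6
    linarith
  obtain ⟨R, K, hcore⟩ : Ker h g β := hβ'1 m E.symm n g G (r + δ) (N₀ + 1) (Nat.succ_pos _)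
    (by linarith) hg0 hg1 hG0 hG b3
  refine ⟨R, C₁, fun N p hNp => ?_⟩
  refine ⟨fun i G k e x => ∑ κ', β' (G, k, e) κ' ((h ^ ((i : ℕ) - (R : ℤ) : ℤ)) x) •
    linU h g K R N x ((i : ℕ) - (R : ℤ) : ℤ) (E κ'), ?_, ?_, ?_, ?_⟩
  · intro i G k e
    simp only [LinearMap.sum_apply, LinearMap.smul_apply, smul_eq_mul]
    refine continuous_finsetSum _ fun κ' _ => ?_
    exact ((β' (G, k, e) κ').continuous.comp ((h ^ _).continuous.comp continuous_fst)).mul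
      (linU_cont h g K R N _ _)
  · intro x q hq
    by_contra hcon
    push Not at hcon
    have hz := hcore x (Finset.Ico (0 : ℤ) N) (fun j l => linZ h g x j l q)
      (fun j _ l hz => linZ_ne h g x q j l hz) ?_
    · refine linZ_nonvanishing h g x q hq N (Finset.univ.filter
        (fun p : Fin N × Fin n => g p.2 ((h ^ ((p.1 : ℕ) : ℤ)) x) = 1)) ?_ ?_ hz
      · intro a ha
        exact (Finset.mem_filter.1 ha).2
      · have h1 := (hC₁ x N).2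
        have h2 : (p : ℝ) ≤ ((Finset.univ.filter
          (fun p : Fin N × Fin n => g p.2 ((h ^ ((p.1 : ℕ) : ℤ)) x) = 1)).card : ℝ) := by
          linarith
        exact_mod_cast h2
    · intro i κ₁
      simp only [← linU_apply]
      by_cases hi : i < -(R : ℤ) ∨ (N : ℤ) + R ≤ i
      · refine Finset.sum_eq_zero fun κ' _ => ?_
        rw [linU_zero h g K R N x i κ' hi, mul_zero]
      · push Not at hi
        obtain ⟨i', hi'⟩ : ∃ i' : Fin (N + 2 * R), i = (i' : ℕ) - (R : ℤ) := by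
          refine ⟨⟨(i + R).toNat, ?_⟩, ?_⟩
          · omega
          · dsimp only
            omega
        have h1 := hcon i' (E.symm κ₁).1 (E.symm κ₁).2.1 (E.symm κ₁).2.2
        rw [← hi'] at h1
        rw [LinearMap.sum_apply] at h1
        rw [← Equiv.sum_comp E]
        simpa [β] using h1
  · intro i G k e x q hne
    rw [LinearMap.sum_apply] at hne
    obtain ⟨κ', -, hκ'⟩ := Finset.exists_ne_zero_of_sum_ne_zero hne
    rw [LinearMap.smul_apply, smul_eq_mul] at hκ'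
    exact hβ'5 _ _ _ (left_ne_zero_of_mul hκ')
  · intro i G k x q x' hx'
    have h1 := hβ'6 x' (fun κ' => linU h g K R N x ((i : ℕ) - (R : ℤ) : ℤ) (E κ') q) G k hx'
    simpa [LinearMap.sum_apply] using h1

theorem dyn_csmallM (hst : StaticThm.{u}) {X : Type u} [MetricSpace X] [CompactSpace X]
    [Nonempty X] {h : X ≃ₜ X} (hmin : Markers h) {r : ℝ} (hr : Good h r)
    {𝒰 : Set (Set X)} (h𝒰 : IsFinOpenCover 𝒰) {κ L : ℕ} (hκ : 1 ≤ κ) (hL : 0 < L) {ε : ℝ}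
    (hε : 0 < ε) {s : ℝ} (hs0 : 0 ≤ s)
    (hs : s + r < κ * ((coverDim (iterCover h 𝒰 L) + 1) / (2 * κ + 1) : ℕ) * (1 - ε) / L) :
    ∃ C' : ℝ, ∀ N a D : ℕ, (2 * κ * a + 1 : ℝ) ≤ s * N - C' →
      (coverDim (iterCover h 𝒰 L) + 1) * (N / L : ℝ) + (coverDim 𝒰 + 1) * (ε * N) + C' ≤
        D + a + 1 → HasCSmall (iterCover h 𝒰 N) D := by
  classical
  obtain ⟨ψ, P, hψ01, hψ, hP, hPl⟩ := exists_colours _ (isFinOpenCover_iterCover h h𝒰 L)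
  obtain ⟨ψ₁, P₁, hψ₁01, hψ₁, hP₁, hPl₁⟩ := exists_colours _ h𝒰
  obtain ⟨ω, hω0, hω1, hsep, hcount⟩ := H193.exists_towerM h hmin.has L hL hε
  obtain ⟨R₀, C₀, hfam⟩ := exists_familyM (κ := κ)
    (t := (coverDim (iterCover h 𝒰 L) + 1) / (2 * κ + 1)) hmin hr ω hω0 hω1 hcount
    (fun G k => ψ ((G : ℕ) * (2 * κ + 1) + k)) hs0 hs
  obtain ⟨C₁, hC₁⟩ := count_uncovered h hL ω hsep hε hcount
  have hU₀ : ∃ U₀, U₀ ∈ 𝒰 := by
    have h1 : (Classical.arbitrary X) ∈ ⋃₀ 𝒰 := by rw [h𝒰.2.2]; trivial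
    obtain ⟨U, hU, -⟩ := h1
    exact ⟨U, hU⟩
  obtain ⟨U₀, hU₀⟩ := hU₀
  have hL' : (0 : ℝ) < L := Nat.cast_pos.mpr hL
  have e1 : (0 : ℝ) ≤ (coverDim (iterCover h 𝒰 L) + 1) * (2 * ((R₀ + L : ℕ) : ℝ) / L + 1) := by
    positivity
  have e2 : (0 : ℝ) ≤ (coverDim 𝒰 + 1) * |C₁| := by positivity
  refine ⟨|C₀| + (coverDim (iterCover h 𝒰 L) + 1) * (2 * ((R₀ + L : ℕ) : ℝ) / L + 1) +
    (coverDim 𝒰 + 1) * |C₁|, fun N a D h1 h2 => ?_⟩
  obtain ⟨F, f1, f2, f3, f4⟩ := hfam N (2 * κ * a + 1) (by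
    have := le_abs_self C₀
    push_cast
    linarith)
  have hF : LinFam h ω (fun (G : Fin ((coverDim (iterCover h 𝒰 L) + 1) / (2 * κ + 1))) k =>
      ψ ((G : ℕ) * (2 * κ + 1) + k)) R₀ N (2 * κ * a + 1) F :=
    ⟨f1, f2, f3, fun i G k x q x' hx' hrad => by
      subst hx'
      exact f4 i G k x q hrad⟩
  obtain ⟨F', hF'⟩ := hF.extend L
  refine csmall_of_family hst h𝒰 hκ hL (Nat.le_add_left L R₀) ω (Nat.div_mul_le_self _ _) ψ ψ₁ P P₁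
    hψ01 hψ₁01 hψ hψ₁ hP hP₁ hPl hPl₁ U₀ hU₀ F' hF' fun x => ?_
  have g1 := count_windows h hL ω hsep x (-((R₀ + L : ℕ) : ℤ)) (N + ((R₀ + L : ℕ) : ℤ)) (by omega)
  have g2 := hC₁ x N
  have g3 := mul_le_mul_of_nonneg_left g1
    (by positivity : (0 : ℝ) ≤ (coverDim (iterCover h 𝒰 L) + 1))
  have g4 := mul_le_mul_of_nonneg_left (g2.trans (add_le_add_right (le_abs_self C₁) _))
    (by positivity : (0 : ℝ) ≤ (coverDim 𝒰 + 1))
  have g5 : (((N + ((R₀ + L : ℕ) : ℤ) - -((R₀ + L : ℕ) : ℤ) : ℤ)) : ℝ) / L + 1 =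
      (N : ℝ) / L + (2 * ((R₀ + L : ℕ) : ℝ) / L + 1) := by
    push_cast
    ring
  rw [g5] at g3
  have g6 := abs_nonneg C₀
  have g7 : ((coverDim (iterCover h 𝒰 L) + 1 : ℝ) * (((Finset.Ico (-((R₀ + L : ℕ) : ℤ))
      (N + ((R₀ + L : ℕ) : ℤ))).filter fun i => ω ((h ^ i) x) ≠ 0).card : ℝ) +
      (coverDim 𝒰 + 1) * (((Finset.range N).filter fun j : ℕ => ∀ i : ℤ, (j : ℤ) - L < i → i ≤ j →
        ω ((h ^ i) x) < 3 / 4).card : ℝ)) ≤ D + a + 1 := by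
    nlinarith [g3, g4, h2, g6]
  exact_mod_cast g7

theorem da_of_staticM (hst : StaticThm.{u}) (X : Type u) [TopologicalSpace X] [CompactSpace X]
    [MetrizableSpace X] [Nonempty X] (h : X ≃ₜ X) (hmin : Markers h)
    (r : ℝ) (hr0 : 0 ≤ r) (hr : Good h r)
    (hlt : ENNReal.ofReal r < meanDim h / 2) : DA ThGood h := by
  let _ := metrizableSpaceMetric X
  obtain ⟨W, hW, δ, hδ, hδr⟩ := exists_cover_gap hr0 hlt
  have hδ0 : 0 < δ := by linarith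
  -- the number of levels
  obtain ⟨κ, hκ⟩ := exists_nat_gt ((r + 1) / (δ - 2 * r))
  have hd2 : 0 < δ - 2 * r := by linarith
  rw [div_lt_iff₀ hd2] at hκ
  have hκ1 : 1 ≤ κ := by
    rcases Nat.eq_zero_or_pos κ with h0 | h0
    · rw [h0] at hκ
      simp at hκ
      linarith
    · exact h0
  have hκ' : (1 : ℝ) ≤ κ := by exact_mod_cast hκ1
  have h2κ : (0 : ℝ) < 2 * κ + 1 := by linarith
  obtain ⟨g, hg⟩ : ∃ g : ℝ, g = κ * δ / (2 * κ + 1) - r := ⟨_, rfl⟩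
  have hg0 : 0 < g := by
    rw [hg, sub_pos, lt_div_iff₀ h2κ]
    nlinarith
  have hgr : κ * δ / (2 * κ + 1) = g + r := by rw [hg]; ring
  obtain ⟨s, hs⟩ : ∃ s : ℝ, s = g / 4 := ⟨_, rfl⟩
  have hs0 : 0 < s := by rw [hs]; linarith
  obtain ⟨σ, hσ⟩ : ∃ σ : ℝ, σ = s / (2 * κ) := ⟨_, rfl⟩
  have hσ0 : 0 < σ := by rw [hσ]; positivity
  -- the error terms
  obtain ⟨η, hη0, hη1, hη2, hη3⟩ : ∃ η : ℝ, 0 < η ∧ η ≤ g / 2 ∧ η < δ ∧ η ≤ σ / 8 := by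
    refine ⟨min (min (g / 2) (δ / 2)) (σ / 8), by positivity,
      (min_le_left _ _).trans (min_le_left _ _), ?_, min_le_right _ _⟩
    have := (min_le_left (min (g / 2) (δ / 2)) (σ / 8)).trans (min_le_right _ _)
    linarith
  obtain ⟨ε, hε0, hε1, hε2, hε3⟩ : ∃ ε : ℝ, 0 < ε ∧ ε ≤ 1 / 2 ∧ ε * (g + r) ≤ g / 8 ∧
      (coverDim W + 1) * ε ≤ σ / 8 := by
    have hgr0 : 0 < g + r := by linarith
    have hc0 : (0 : ℝ) < coverDim W + 1 := by positivity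
    refine ⟨min (min (1 / 2) (g / 8 / (g + r))) (σ / 8 / (coverDim W + 1)), by positivity,
      (min_le_left _ _).trans (min_le_left _ _), ?_, ?_⟩
    · rw [← le_div_iff₀ hgr0]
      exact (min_le_left _ _).trans (min_le_right _ _)
    · rw [mul_comm, ← le_div_iff₀ hc0]
      exact min_le_right _ _
  -- the length `L`
  obtain ⟨L₀, hL₀⟩ := exists_nat_gt (8 * κ / g + 8 / σ)
  obtain ⟨L, hLL, hLn, hLn'⟩ := exists_length hδ hδ0 hη0 hη2 L₀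
  have hLr : 8 * κ / g + 8 / σ < L := hL₀.trans_le (by exact_mod_cast hLL)
  have hL' : (0 : ℝ) < L := lt_trans (by positivity) hLr
  have hL0 : 0 < L := by exact_mod_cast hL'
  have hLκ : (κ : ℝ) / L ≤ g / 8 := by
    have h1 : 8 * κ / g < L := lt_of_le_of_lt (by
      have : 0 < 8 / σ := by positivity
      linarith) hLr
    rw [div_lt_iff₀ hg0] at h1
    rw [div_le_iff₀ hL']
    linarith
  have hLσ : 1 / (L : ℝ) ≤ σ / 8 := by
    have h1 : 8 / σ < L := lt_of_le_of_lt (by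
      have : 0 < 8 * κ / g := by positivity
      linarith) hLr
    rw [div_lt_iff₀ hσ0] at h1
    rw [div_le_iff₀ hL']
    linarith
  have hs1 := param_ineq hκ1 hL0 hgr hg0 hs hη0 hη1 hε0 hε1 hε2 hLκ hLn
  obtain ⟨C', hC'⟩ := dyn_csmallM hst hmin hr hW hκ1 hL0 hε0 hs0.le hs1
  -- the window length `N`
  obtain ⟨K, hK⟩ : ∃ K : ℝ, K = |C'| + (|C'| + 1) / (2 * κ) + 2 := ⟨_, rfl⟩
  have hK0 : 0 < K := by
    rw [hK]
    positivity
  obtain ⟨N, hN⟩ := exists_nat_gt ((|C'| + 1) / s + K / (σ / 2))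
  have hNa : (|C'| + 1) / s < N := lt_of_le_of_lt (by
    have : 0 < K / (σ / 2) := by positivity
    linarith) hN
  have hNb : K / (σ / 2) < N := lt_of_le_of_lt (by
    have : 0 < (|C'| + 1) / s := by positivity
    linarith) hN
  rw [div_lt_iff₀ hs0] at hNa
  rw [div_lt_iff₀ (by linarith)] at hNb
  have hN' : (0 : ℝ) < N := by
    by_contra h0
    push Not at h0
    have : (0 : ℝ) ≤ |C'| := abs_nonneg _
    nlinarith
  have hN0 : 0 < N := by exact_mod_cast hN'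
  have hCC : C' ≤ |C'| := le_abs_self _
  obtain ⟨y, hy⟩ : ∃ y : ℝ, y = (s * N - |C'| - 1) / (2 * κ) := ⟨_, rfl⟩
  have hy0 : 0 ≤ y := by
    rw [hy]
    apply div_nonneg _ (by positivity)
    linarith
  have h2κ0 : (0 : ℝ) < 2 * κ := by linarith
  have hya : 2 * κ * (⌊y⌋₊ : ℝ) + 1 ≤ s * N - C' := by
    have h1 : (⌊y⌋₊ : ℝ) ≤ y := Nat.floor_le hy0
    have h2 : 2 * κ * (⌊y⌋₊ : ℝ) ≤ 2 * κ * y := mul_le_mul_of_nonneg_left h1 h2κ0.le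
    have h3 : 2 * κ * y = s * N - |C'| - 1 := by
      rw [hy]
      field_simp
    linarith
  have hya' : y - 1 < (⌊y⌋₊ : ℝ) := by
    have := Nat.lt_floor_add_one y
    linarith
  obtain ⟨E, hE⟩ : ∃ E : ℝ, E = (coverDim (iterCover h W L) + 1) * (N / L : ℝ) +
    (coverDim W + 1) * (ε * N) + C' := ⟨_, rfl⟩
  have hsm := hC' N ⌊y⌋₊ (⌈E⌉₊ - ⌊y⌋₊ - 1) hya (by
    rw [← hE]
    have h1 : E ≤ (⌈E⌉₊ : ℝ) := Nat.le_ceil E
    have h2 : ⌈E⌉₊ ≤ (⌈E⌉₊ - ⌊y⌋₊ - 1) + ⌊y⌋₊ + 1 := by omega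
    have h3 : (⌈E⌉₊ : ℝ) ≤ ((⌈E⌉₊ - ⌊y⌋₊ - 1 : ℕ) : ℝ) + ⌊y⌋₊ + 1 := by exact_mod_cast h2
    linarith)
  obtain ⟨t, C, w, hw, hG, hCS⟩ := hsm
  refine ⟨W, N, t, ⌈E⌉₊ - ⌊y⌋₊ - 1, C, w, hW, hN0, hw, hG, hCS, ?_⟩
  -- the rate
  have hD : ((⌈E⌉₊ - ⌊y⌋₊ - 1 : ℕ) : ℝ) < δ * N := by
    rcases le_or_gt ⌈E⌉₊ (⌊y⌋₊ + 1) with h0 | h0
    · have h1 : ⌈E⌉₊ - ⌊y⌋₊ - 1 = 0 := by omega
      rw [h1, Nat.cast_zero]
      positivity
    · have h1 : ((⌈E⌉₊ - ⌊y⌋₊ - 1 : ℕ) : ℝ) = (⌈E⌉₊ : ℝ) - ⌊y⌋₊ - 1 := by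
        rw [Nat.sub_sub, Nat.cast_sub (by omega)]
        push_cast
        ring
      have hE0 : 0 ≤ E := by
        by_contra hneg
        push Not at hneg
        rw [Nat.ceil_eq_zero.2 hneg.le] at h0
        omega
      have h2 : (⌈E⌉₊ : ℝ) < E + 1 := Nat.ceil_lt_add_one hE0
      rw [h1]
      have hE' : E = ((coverDim (iterCover h W L) : ℝ) + 1) * ((N : ℝ) / L) +
          ((coverDim W : ℝ) + 1) * ε * N + C' := by rw [hE]; ring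
      have h3 := rate_ineq (C' := C') hL' hN' hκ' hLσ hη3 hLn' hε3 hσ hy hE' hK hNb
      linarith
  have hN0' : (N : ℝ≥0∞) ≠ 0 := by exact_mod_cast hN0.ne'
  rw [hδ, ENNReal.div_lt_iff (Or.inl hN0') (Or.inl (ENNReal.natCast_ne_top N)),
    ← ENNReal.ofReal_natCast (⌈E⌉₊ - ⌊y⌋₊ - 1), ← ENNReal.ofReal_natCast N,
    ← ENNReal.ofReal_mul hδ0.le]
  exact (ENNReal.ofReal_lt_ofReal_iff_of_nonneg (Nat.cast_nonneg _)).2 hD

/-- **The lower bound** from parts A and N. -/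
theorem le_of_good (hst : StaticThm.{u})
    (hN : ∀ {t : ℕ} (C : Space) (w : (Fin t → ℝ) → C.carrier), ThGood C w → U.LR C w)
    {X : Type u} [TopologicalSpace X] [CompactSpace X] [MetrizableSpace X] [Nonempty X]
    {h : X ≃ₜ X} (hm : Markers h) {r : ℝ} (hr0 : 0 ≤ r) (hr : Good h r) :
    meanDim h / 2 ≤ ENNReal.ofReal r := by
  by_contra hlt
  obtain ⟨W, N, t, d, C, w, hW, hN0, hw, hG, hC, hlt⟩ :=
    da_of_staticM hst X h hm r hr0 hr (not_le.mp hlt)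
  exact absurd (partU X h W hW N t d hN0 C w hw hC (hN C w hG)) (not_le.mpr hlt)

end Vale.Agent.N093
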