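import Vale.Agent.N093.Upper
import Vale.Agent.N093.Lower
import Vale.Agent.P093U41.Main

/-!
# P093: the comparison bounds of the crossed product by a homeomorphism with markers
-/

set_option linter.all false

open Filter Topology Vale.Agent.P093 Vale.Agent.P093U TopologicalSpace
open scoped ENNReal

namespace Vale.Agent.N093

universe u v

section Bridge

variable {A : Type u} [CStarAlgebra A] [PartialOrder A] [StarOrderedRing A]

/-- the bundled tracial state -/
def IsTrace.st {τ : A →ₗ[ℂ] ℂ} (hτ : IsTrace τ) : TracialState A := ⟨τ, hτ.1, hτ.2.1, hτ.2.2⟩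

theorem isTrace_st (τ : TracialState A) : IsTrace τ.toFun := ⟨τ.map_one, τ.nonneg, τ.tracial⟩

theorem dT_eq (τ : TracialState A) {n : ℕ} (a : CStarMatrix (Fin n) (Fin n) A) :
    dT τ.toFun a = dTau τ a := rfl

theorem tendsto_dT {τ : A →ₗ[ℂ] ℂ} (hτ : IsTrace τ) {n : ℕ} {a : CStarMatrix (Fin n) (Fin n) A}
    (ha : 0 ≤ a) : Tendsto (rootTr τ a) atTop (𝓝 (dT τ a)) :=
  P093Z.tendsto_dTau' hτ.st ha

theorem bound_eq (r : ℝ) : Bound A r ↔ IsComparisonBound A r := by
  rw [← bound_iff]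
  exact ⟨fun H => ⟨H.1, fun n m a b ha hb hτ => H.2 n m a b ha hb fun τ c => hτ c.st⟩,
    fun H => ⟨H.1, fun n m a b ha hb hτ => H.2 n m a b ha hb fun τ => hτ _ (isTrace_st τ)⟩⟩

end Bridge

variable {X : Type u} [TopologicalSpace X] [CompactSpace X] [MetrizableSpace X] {h : X ≃ₜ X}

theorem cov_iff {B : Type u} [CStarAlgebra B] {π : C(X, ℂ) →⋆ₐ[ℂ] B} {U : B} :
    IsCov h π U ↔ IsCovariant h π U :=
  ⟨fun c => ⟨c.1.1, c.1.2, c.2⟩, fun c => ⟨⟨c.1, c.2⟩, c.3⟩⟩

theorem crossed_iff {A : Type u} [CStarAlgebra A] : IsCrossed h A ↔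
    ∃ (π : C(X, ℂ) →⋆ₐ[ℂ] A) (U : A), IsUniversal.{u, u, u} h π U := by
  simp only [IsCrossed, IsUniversal, cov_iff]

theorem exists_crossed (h : X ≃ₜ X) : ∃ (A : Type u) (_ : CStarAlgebra A) (_ : PartialOrder A)
    (_ : StarOrderedRing A), IsCrossed h A :=
  ⟨Reduced h, inferInstance, CStarAlgebra.spectralOrder _, CStarAlgebra.spectralOrderedRing _,
    crossed_iff.2 ⟨piR h, uR h, universal_R h⟩⟩

theorem Markers.aperiodic {X : Type u} [TopologicalSpace X] {h : X ≃ₜ X} (hm : Markers h) :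
    Aperiodic h := fun k hk x => by
  have := hm.has.free k x (by omega)
  rwa [zpow_natCast] at this

theorem markers_of_min [Infinite X] (hm : IsMin h) : Markers h :=
  of_has (H193.hasMarkers_of_minimal hm)

theorem mdim_eq' [Nonempty X] (h : X ≃ₜ X) : mdim h = meanDim h := mdim_eq h

theorem tendsto_rate' [Nonempty X] (h : X ≃ₜ X) {W : Set (Set X)} (hW : IsCover W) :
    Tendsto (fun N : ℕ => (covD (join h W N) : ℝ≥0∞) / N) atTop (𝓝 (rate h W)) :=
  (tendsto_rate h hW).1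

variable {A : Type u} [CStarAlgebra A] [PartialOrder A] [StarOrderedRing A]

theorem IsCrossed.gen (c : IsCrossed h A) : IsCrossedProduct h A := by
  obtain ⟨π, U, c⟩ := crossed_iff.1 c
  exact (equiv_of_universal c).elim crossed_of_equiv

theorem sub_le_bound (c : IsCrossed h A) {Y : Type u} [TopologicalSpace Y]
    [CompactSpace Y] [MetrizableSpace Y] [Nonempty Y] {k : Y ≃ₜ Y} {ι : Y → X} (hι : Continuous ι)
    (hi : Function.Injective ι) (hc : ∀ y, ι (k y) = h (ι y)) (hm : Markers k) {r : ℝ}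
    (hr : Bound A r) : mdim k / 2 ≤ ENNReal.ofReal r := by
  obtain ⟨π, U, c⟩ := crossed_iff.1 c
  obtain ⟨φ, ⟨h1, -⟩, -⟩ := c.2 _ _ _ (cov_R h)
  rw [bound_eq] at hr
  rw [mdim_eq']
  refine le_of_good A5.staticThm N.Fin.partN hm hr.1 (good_sub (h := h) (ι := ⟨ι, hι⟩)
    (hι.isClosedEmbedding hi) hc fun m q γ hγ =>
      core_amb c.1 ((toC (opR h) opR_mem).comp φ) (fun f => ?_) hr hγ)
  rw [StarAlgHom.comp_apply, h1]
  rfl

theorem sub_le_radius (c : IsCrossed h A) {Y : Type u} [TopologicalSpace Y]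
    [CompactSpace Y] [MetrizableSpace Y] [Nonempty Y] {k : Y ≃ₜ Y} {ι : Y → X} (hι : Continuous ι)
    (hi : Function.Injective ι) (hc : ∀ y, ι (k y) = h (ι y)) (hm : Markers k) :
    mdim k / 2 ≤ radius A :=
  le_iInf fun r => sub_le_bound c hι hi hc hm r.2

theorem bound_iff_le [Nonempty X] (c : IsCrossed h A) (hm : Markers h) (r : ℝ) :
    Bound A r ↔ 0 ≤ r ∧ mdim h / 2 ≤ ENNReal.ofReal r := by
  refine ⟨fun hr => ⟨hr.1, sub_le_bound c continuous_id Function.injective_id (fun _ => rfl) hm hr⟩,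
    fun hr => ?_⟩
  rw [mdim_eq'] at hr
  exact (bound_eq r).2 (bound_of hm c.gen hr.1 hr.2)

theorem radius_eq [Nonempty X] (c : IsCrossed h A) (hm : Markers h) : radius A = mdim h / 2 := by
  refine le_antisymm ?_ (le_iInf fun r => ((bound_iff_le c hm r.1).1 r.2).2)
  rcases eq_or_ne (mdim h / 2) ∞ with h0 | h0
  · rw [h0]
    exact le_top
  · exact iInf_le_of_le ⟨(mdim h / 2).toReal, (bound_iff_le c hm _).2
      ⟨ENNReal.toReal_nonneg, (ENNReal.ofReal_toReal h0).ge⟩⟩ (ENNReal.ofReal_toReal h0).le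

theorem exists_trace [Nonempty X] (c : IsCrossed h A) (hm : Markers h) :
    ∃ τ : A →ₗ[ℂ] ℂ, IsTrace τ := by
  obtain ⟨s⟩ := exists_sysM hm.has.free c.gen
  obtain ⟨τ, -⟩ := s.exists_trace (fun _ => Classical.arbitrary X) (fun j => j + 1) fun _ => le_rfl
  exact ⟨_, isTrace_st τ⟩

end Vale.Agent.N093
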