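import Vale.Agent.N093.Defs
import Vale.Agent.P093.H193.Mark

/-!
# P093: homeomorphisms with the marker property
-/

set_option linter.all false

open Filter Topology Set Vale.Agent.P093

namespace Vale.Agent.N093

variable {X : Type*} [TopologicalSpace X] {h : X ≃ₜ X}

theorem Markers.has (hm : Markers h) : H193.HasMarkers h := hm

theorem of_has (hm : H193.HasMarkers h) : Markers h := hm

/-- no return before time `n` -/
def Sep (h : X ≃ₜ X) (n : ℕ) (K : Set X) : Prop :=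
  ∀ k : ℕ, 0 < k → k < n → ∀ x ∈ K, (h ^ k) x ∉ K

theorem Sep.mono {n : ℕ} {K K' : Set X} (hK : Sep h n K) (hs : K' ⊆ K) : Sep h n K' :=
  fun k h0 hk x hx hx' => hK k h0 hk x (hs hx) (hs hx')

theorem zpow_app (h : X ≃ₜ X) (i j : ℤ) (x : X) : (h ^ i) ((h ^ j) x) = (h ^ (i + j)) x := by
  rw [zpow_add]
  rfl

theorem inv_nat {M : Set X} (hM : h ⁻¹' M = M) (k : ℕ) (x : X) : (h ^ k) x ∈ M ↔ x ∈ M := by
  induction k generalizing x with
  | zero => rfl
  | succ k ih =>
    rw [pow_succ]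
    change (h ^ k) (h x) ∈ M ↔ _
    rw [ih]
    exact Set.ext_iff.1 hM x

theorem inv_int {M : Set X} (hM : h ⁻¹' M = M) (k : ℤ) (x : X) : (h ^ k) x ∈ M ↔ x ∈ M := by
  rcases Int.eq_nat_or_neg k with ⟨n, rfl | rfl⟩
  · rw [zpow_natCast]
    exact inv_nat hM n x
  · rw [← inv_nat hM n, ← zpow_natCast, zpow_app, add_neg_cancel, zpow_zero]
    rfl

/-- a closed set without early returns has an open neighbourhood whose closure has none -/
theorem Sep.exists_open [NormalSpace X] {n : ℕ} {K : Set X} (hc : IsClosed K) (hK : Sep h n K) :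
    ∃ U : Set X, IsOpen U ∧ K ⊆ U ∧ Sep h n (closure U) := by
  have h1 : ∀ k : ℕ, ∃ V : Set X, IsOpen V ∧ K ⊆ V ∧
      (0 < k → k < n → ∀ x ∈ V, (h ^ k) x ∉ V) := by
    intro k
    by_cases hk : 0 < k ∧ k < n
    · have hd : Disjoint K ((h ^ k) ⁻¹' K) :=
        Set.disjoint_left.2 fun x hx hx' => hK k hk.1 hk.2 x hx hx'
      obtain ⟨U, W, hU, hW, h1, h2, h3⟩ :=
        normal_separation hc (hc.preimage (h ^ k).continuous) hd
      refine ⟨U ∩ (h ^ k).symm ⁻¹' W, hU.inter (hW.preimage (h ^ k).symm.continuous),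
        fun x hx => ⟨h1 hx, h2 ?_⟩, fun _ _ x hx hx' => ?_⟩
      · simpa using hx
      · refine Set.disjoint_left.1 h3 hx.1 ?_
        simpa using hx'.2
    · exact ⟨univ, isOpen_univ, subset_univ _, fun a b => absurd ⟨a, b⟩ hk⟩
  choose V hV using h1
  obtain ⟨U, hU, h2, h3⟩ := normal_exists_closure_subset hc
    (isOpen_biInter_finset (s := Finset.range n) fun k _ => (hV k).1)
    (subset_iInter₂ fun k _ => (hV k).2.1)
  refine ⟨U, hU, h2, fun k h0 hk x hx hx' => ?_⟩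
  exact (hV k).2.2 h0 hk x (mem_iInter₂.1 (h3 hx) k (Finset.mem_range.2 hk))
    (mem_iInter₂.1 (h3 hx') k (Finset.mem_range.2 hk))

/-- one more invariant set -/
theorem exists_step [NormalSpace X] [T1Space X] (hp : Aperiodic h) {n : ℕ} {U : Set X}
    (hU : Sep h n (closure U)) (M : Set X) : ∃ U' : Set X, IsOpen U' ∧ Sep h n (closure U') ∧
      U ⊆ U' ∧ (M.Nonempty → h ⁻¹' M = M → (U' ∩ M).Nonempty) := by
  by_cases h1 : M.Nonempty ∧ h ⁻¹' M = M ∧ ∀ x ∈ M, x ∉ closure U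
  · obtain ⟨⟨x, hx⟩, hM, h2⟩ := h1
    have h3 : Sep h n (insert x (closure U)) := by
      rintro k h0 hk y (rfl | hy) (hy' | hy')
      · exact hp k h0 _ hy'
      · exact h2 _ ((inv_nat hM k _).2 hx) hy'
      · exact h2 _ ((inv_nat hM k _).1 (hy' ▸ hx)) hy
      · exact hU k h0 hk y hy hy'
    obtain ⟨U', h4, h5, h6⟩ := Sep.exists_open
      (by rw [insert_eq]; exact isClosed_singleton.union isClosed_closure) h3
    exact ⟨U', h4, h6, fun y hy => h5 (Or.inr (subset_closure hy)),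
      fun _ _ => ⟨x, h5 (Or.inl rfl), hx⟩⟩
  · obtain ⟨U', h4, h5, h6⟩ := Sep.exists_open isClosed_closure hU
    refine ⟨U', h4, h6, subset_closure.trans h5, fun a b => ?_⟩
    by_contra h7
    exact h1 ⟨a, b, fun x hx hx' => h7 ⟨x, h5 hx', hx⟩⟩

/-- every nonempty closed invariant set contains a minimal set -/
theorem exists_minimal [CompactSpace X] {Y : Set X} (h0 : Y.Nonempty) (hc : IsClosed Y)
    (hY : h ⁻¹' Y = Y) : ∃ M, M ⊆ Y ∧ IsMinimalSet h M := by
  refine zorn_superset_nonempty {N : Set X | N.Nonempty ∧ IsClosed N ∧ h ⁻¹' N = N}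
    (fun c hcS hch hne => ⟨⋂₀ c, ⟨?_, isClosed_sInter fun s hs => (hcS hs).2.1, ?_⟩,
      fun s hs => sInter_subset_of_mem hs⟩) Y ⟨h0, hc, hY⟩
  · haveI := hne.to_subtype
    refine IsCompact.nonempty_sInter_of_directed_nonempty_isCompact_isClosed ?_
      (fun s hs => (hcS hs).1) (fun s hs => (hcS hs).2.1.isCompact) fun s hs => (hcS hs).2.1
    intro a ha b hb
    rcases hch.total ha hb with h1 | h1
    · exact ⟨a, ha, subset_rfl, h1⟩
    · exact ⟨b, hb, h1, subset_rfl⟩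
  · rw [preimage_sInter]
    ext x
    simp only [mem_iInter, mem_sInter]
    exact forall₂_congr fun s hs => Set.ext_iff.1 (hcS hs).2.2 x

/-- an open set which meets every minimal set is visited by every orbit -/
theorem visit [CompactSpace X] {U : Set X} (hU : IsOpen U)
    (H : ∀ M, IsMinimalSet h M → (U ∩ M).Nonempty) (x : X) : ∃ k : ℤ, (h ^ k) x ∈ U := by
  by_contra hn
  have h1 : IsClosed {y | ∀ k : ℤ, (h ^ k) y ∉ U} := by
    rw [ofPred_forall]
    exact isClosed_iInter fun k => (hU.preimage (h ^ k).continuous).isClosed_compl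
  obtain ⟨M, h2, h3⟩ := exists_minimal (h := h) (Y := {y | ∀ k : ℤ, (h ^ k) y ∉ U})
    ⟨x, fun k hk => hn ⟨k, hk⟩⟩ h1 (by
    ext y
    have e : ∀ k : ℤ, (h ^ k) (h y) = (h ^ (k + 1)) y := fun k => by
      rw [← zpow_app, zpow_one]
    refine ⟨fun hy k hk => hy (k - 1) ?_, fun hy k hk => hy (k + 1) ?_⟩
    · rwa [e, sub_add_cancel]
    · rwa [← e])
  obtain ⟨y, hy, hy'⟩ := H M h3
  exact h2 hy' 0 hy

/-- aperiodic homeomorphisms with at most countably many minimal sets have markers -/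
theorem markers_of_countable [CompactSpace X] [T2Space X] (hp : Aperiodic h)
    (hc : {M | IsMinimalSet h M}.Countable) : Markers h := by
  intro n
  obtain ⟨f, hf⟩ := Set.countable_iff_exists_subset_range.1 hc
  have h1 := fun (U : {U : Set X // IsOpen U ∧ Sep h n (closure U)}) (M : Set X) =>
    exists_step hp U.2.2 M
  choose g hg using h1
  let U : ℕ → {U : Set X // IsOpen U ∧ Sep h n (closure U)} := fun j =>
    Nat.rec ⟨∅, isOpen_empty, fun k _ _ x hx => by simp at hx⟩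
      (fun j V => ⟨g V (f j), (hg V (f j)).1, (hg V (f j)).2.1⟩) j
  have h2 : Monotone fun j => (U j).1 := monotone_nat_of_le_succ fun j => (hg (U j) (f j)).2.2.1
  have h3 : IsOpen (⋃ j, (U j).1) := isOpen_iUnion fun j => (U j).2.1
  refine ⟨⋃ j, (U j).1, h3, fun k h0 hk x hx hx' => ?_, visit h3 fun M hM => ?_⟩
  · obtain ⟨i, hi⟩ := mem_iUnion.1 hx
    obtain ⟨j, hj⟩ := mem_iUnion.1 hx'
    exact (U (max i j)).2.2 k h0 hk x (subset_closure (h2 (le_max_left i j) hi))
      (subset_closure (h2 (le_max_right i j) hj))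
  · obtain ⟨j, rfl⟩ := hf hM
    obtain ⟨y, hy, hy'⟩ := (hg (U j) (f j)).2.2.2 hM.prop.1 hM.prop.2.2
    exact ⟨y, mem_iUnion.2 ⟨j + 1, hy⟩, hy'⟩

/-- aperiodic homeomorphisms of totally disconnected spaces have markers -/
theorem markers_of_td [CompactSpace X] [T2Space X] [TotallyDisconnectedSpace X]
    (hp : Aperiodic h) : Markers h := by
  classical
  intro L
  have h0 : ∀ x : X, ∃ U : Set X, IsClopen U ∧ x ∈ U ∧ Sep h L U := by
    intro x
    obtain ⟨V, hVo, hxV, hV⟩ := Sep.exists_open (h := h) (n := L) (isClosed_singleton (x := x))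
      (by rintro k h0 - _ rfl hy; exact hp k h0 _ hy)
    obtain ⟨U, hU, hxU, hUV⟩ := compact_exists_isClopen_in_isOpen hVo (hxV rfl)
    exact ⟨U, hU, hxU, hV.mono (hUV.trans subset_closure)⟩
  choose U hU hxU hUs using h0
  obtain ⟨t, ht⟩ := isCompact_univ.elim_finite_subcover U (fun x => (hU x).isOpen)
    fun x _ => Set.mem_iUnion.2 ⟨x, hxU x⟩
  have key : ∀ s : Finset X, ∃ V : Set X, IsClopen V ∧ Sep h L V ∧
      ∀ y ∈ s, ∀ x ∈ U y, ∃ i : ℤ, (h ^ i) x ∈ V := by
    intro s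
    induction s using Finset.induction_on with
    | empty => exact ⟨∅, isClopen_empty, fun _ _ _ _ hx => hx.elim, fun _ hy => by simp at hy⟩
    | insert a s ha ih =>
      obtain ⟨V, hVc, hVs, hV⟩ := ih
      obtain ⟨T, hT, hT1, hT2⟩ : ∃ T : Set X, IsClopen T ∧
          (∀ x, x ∈ T → ∃ i : ℤ, (h ^ i) x ∈ V) ∧
          ∀ x (i : ℤ), -(L : ℤ) < i → i < L → (h ^ i) x ∈ V → x ∈ T := by
        refine ⟨⋃ n ∈ Finset.Ioo (-(L : ℤ)) L, (h ^ n) ⁻¹' V, ⟨?_, ?_⟩, fun x hx => ?_,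
          fun x i h1 h2 hx => mem_iUnion₂.2 ⟨i, Finset.mem_Ioo.2 ⟨h1, h2⟩, hx⟩⟩
        · exact isClosed_biUnion_finset fun n _ => hVc.isClosed.preimage (h ^ n).continuous
        · exact isOpen_biUnion fun n _ => hVc.isOpen.preimage (h ^ n).continuous
        · obtain ⟨n, -, hn⟩ := mem_iUnion₂.1 hx
          exact ⟨n, hn⟩
      refine ⟨V ∪ (U a \ T), hVc.union ((hU a).diff hT), ?_, ?_⟩
      · rintro n hn hnL x (hx | ⟨hx, hxT⟩) (hx' | ⟨hx', hxT'⟩)
        · exact hVs n hn hnL x hx hx'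
        · refine hxT' (hT2 _ (-n) (by omega) (by omega) ?_)
          rw [← zpow_natCast, zpow_app, neg_add_cancel, zpow_zero]
          exact hx
        · exact hxT (hT2 _ n (by omega) (by omega) (by rwa [zpow_natCast]))
        · exact hUs a n hn hnL x hx hx'
      · intro y hy x hx
        rcases Finset.mem_insert.1 hy with rfl | hy
        · by_cases hxT : x ∈ T
          · exact (hT1 x hxT).imp fun _ hn => Or.inl hn
          · exact ⟨0, Or.inr ⟨hx, hxT⟩⟩
        · exact (hV y hy x hx).imp fun _ hn => Or.inl hn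
  obtain ⟨V, hVc, hVs, hV⟩ := key t
  refine ⟨V, hVc.isOpen, hVs, fun x => ?_⟩
  obtain ⟨y, hy, hxy⟩ := Set.mem_iUnion₂.1 (ht (Set.mem_univ x))
  exact hV y hy x hxy

end Vale.Agent.N093
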