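import Vale.Agent.N093.Main

/-!
# P093: the Phillips-Toms conjecture, and the same equality for all homeomorphisms with markers
-/

open Filter Topology TopologicalSpace Vale.Agent.N093
open scoped ENNReal

namespace Vale.Agent.N093.OldMarkers

universe u v

theorem withdrawn (X : Type u) [TopologicalSpace X] [CompactSpace X] [MetrizableSpace X]
    (h : X ≃ₜ X) :
    -- (0) the crossed product `C(X) ⋊_h ℤ` exists
    (∃ (A : Type u) (_ : CStarAlgebra A) (_ : PartialOrder A) (_ : StarOrderedRing A),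
      IsCrossed h A) ∧
    (∀ (A : Type u) [CStarAlgebra A] [PartialOrder A] [StarOrderedRing A], IsCrossed h A →
      -- (1) the conjecture
      (Infinite X → IsMin h → radius A = mdim h / 2) ∧
      -- (2) all homeomorphisms with markers, and all comparison bounds
      (Nonempty X → Markers h → (∃ τ : A →ₗ[ℂ] ℂ, IsTrace τ) ∧ radius A = mdim h / 2 ∧
        ∀ r : ℝ, Bound A r ↔ 0 ≤ r ∧ mdim h / 2 ≤ ENNReal.ofReal r) ∧
      -- (3) all homeomorphisms: the lower bound from every subsystem with markers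
      ∀ (Y : Type u) [TopologicalSpace Y] [CompactSpace Y] [MetrizableSpace Y] [Nonempty Y]
        (g : Y ≃ₜ Y) (ι : Y → X), Continuous ι → Function.Injective ι →
        (∀ y, ι (g y) = h (ι y)) → Markers g → mdim g / 2 ≤ radius A) ∧
    -- (4) homeomorphisms with markers
    (Infinite X → IsMin h → Markers h) ∧
    (Aperiodic h → {M | IsMinimalSet h M}.Countable → Markers h) ∧
    (Aperiodic h → TotallyDisconnectedSpace X → Markers h) ∧
    (∀ (Y : Type v) [TopologicalSpace Y] (g : Y ≃ₜ Y) (p : X → Y), Continuous p →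
      (∀ x, p (h x) = g (p x)) → Markers g → Markers h) ∧
    (Markers h → Aperiodic h) ∧
    -- (5) the limits in `mdim` and in `d_τ` exist
    (Nonempty X → ∀ 𝒰 : Set (Set X), IsCover 𝒰 →
      Tendsto (fun N : ℕ => (covD (join h 𝒰 N) : ℝ≥0∞) / N) atTop (𝓝 (rate h 𝒰))) ∧
    ∀ (A : Type u) [CStarAlgebra A] [PartialOrder A] [StarOrderedRing A] (τ : A →ₗ[ℂ] ℂ)
      (n : ℕ) (a : CStarMatrix (Fin n) (Fin n) A), IsTrace τ → 0 ≤ a →
      Tendsto (rootTr τ a) atTop (𝓝 (dT τ a)) :=
  ⟨exists_crossed h,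
    fun _ _ _ _ c => ⟨fun _ hm => radius_eq c (markers_of_min hm),
      fun _ hm => ⟨exists_trace c hm, radius_eq c hm, bound_iff_le c hm⟩,
      fun _ _ _ _ _ _ _ hι hi hc hm => sub_le_radius c hι hi hc hm⟩,
    fun _ hm => markers_of_min hm, markers_of_countable, fun hp _ => markers_of_td hp,
    fun _ _ _ _ hp hc hm => of_has (hm.has.extension hp hc), Markers.aperiodic,
    fun _ _ hW => tendsto_rate' h hW, fun _ _ _ _ _ _ _ hτ ha => tendsto_dT hτ ha⟩

end Vale.Agent.N093.OldMarkers
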