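import Vale.Agent.N093.Mark
import Vale.Agent.P093Z.Main

/-!
# P093, upper bound for homeomorphisms with markers: `mdim(h) / 2` is a comparison bound
-/

set_option linter.all false
set_option backward.isDefEq.respectTransparency false

open Set Filter Topology Vale.Agent.P093 Vale.Agent.P093Z
open scoped ENNReal ComplexOrder

namespace Vale.Agent.N093

section

variable {X : Type*} [TopologicalSpace X] [CompactSpace X] {h : X ≃ₜ X}

theorem exists_markM [T2Space X] (hmin : Markers h) (L : ℕ) :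
    Nonempty (Mark h L) := by
  obtain ⟨w, R, hw0, hw1, hsep, hret⟩ := H193.exists_cutoffM h hmin.has L
  let ρ : C(X, ℝ) := 1 - w
  have hρ : ∀ x, ρ x = 1 - w x := fun x => rfl
  let p : ℕ → X → ℝ := fun k z => ∏ i ∈ Finset.range k, ρ ((h ^ (-(i : ℤ))) z)
  have hp : ∀ k, Continuous (p k) := fun k =>
    continuous_finsetProd _ fun i _ => ρ.continuous.comp (h ^ (-(i : ℤ))).continuous
  refine ⟨⟨ρ, ⟨fun z => ∑ k ∈ Finset.range R, p (k + 1) z,
    continuous_finsetSum _ fun k _ => hp _⟩, R, fun x => by rw [hρ]; linarith [hw1 x],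
    fun x => by rw [hρ]; linarith [hw0 x], fun x i j hij h1 h2 => hsep x i j hij ?_ ?_,
    fun z => ?_, fun z => ?_⟩⟩
  · intro h0
    exact h1 (by rw [hρ, h0, sub_zero])
  · intro h0
    exact h2 (by rw [hρ, h0, sub_zero])
  · obtain ⟨i, hi, h1⟩ := hret z
    exact ⟨i, hi, by change ρ _ = 0; rw [hρ, h1, sub_self]⟩
  · change ∑ k ∈ Finset.range R, p (k + 1) (h z) =
      ρ (h z) * (∑ k ∈ Finset.range R, p (k + 1) z + 1)
    have h1 : ∀ k, p (k + 1) (h z) = ρ (h z) * p k z := by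
      intro k
      simp only [p]
      rw [Finset.prod_range_succ', mul_comm]
      congr 1
      refine Finset.prod_congr rfl fun i _ => ?_
      congr 1
      have e0 : h z = (h ^ (1 : ℤ)) z := by rw [zpow_one]
      rw [e0, zpow_app]
      congr 2
      push_cast
      ring
    have h2 : p R z = 0 := by
      obtain ⟨i, hi, h3⟩ := hret z
      exact Finset.prod_eq_zero (Finset.mem_range.2 hi) (by rw [hρ, h3, sub_self])
    have h3 := Finset.sum_range_succ' (fun k => p k z) R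
    rw [Finset.sum_range_succ, h2, add_zero] at h3
    simp only [h1]
    rw [← Finset.mul_sum, h3]
    simp [p]

theorem exists_paramM [T2Space X] [Nonempty X] (hmin : Markers h) {μ : ℝ}
    (hμ : meanDim h < ENNReal.ofReal μ) {F : Type*} [Fintype F] (f : F → C(X, ℂ)) {η : ℝ}
    (hη : 0 < η) (K N₀ : ℕ) {θ : ℝ} (hθ : 0 < θ) :
    ∃ (ρ : C(X, ℝ)) (R : ℕ) (g : F → C(X, ℂ)), (∀ x, 0 ≤ ρ x ∧ ρ x ≤ 1) ∧
      Ret h {x | ρ x = 0} R ∧ (∀ i, ‖g i - f i‖ ≤ η) ∧ ∀ r : ℕ,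
      (∀ x, FR h {x | ρ x = 0} r x → N₀ ≤ r ∧
        ∃ B : Finset (Fin r), (B.card : ℝ) ≤ θ * r ∧
          ∀ j ∉ B, ∀ l : ℤ, |l - (j : ℕ)| ≤ K → ρ ((h ^ l) x) = 1) ∧
      ∃ (Λ : Type) (_ : Fintype Λ) (e : X → Λ → ℝ),
        (∀ x, FR h {x | ρ x = 0} r x → ({l | e x l ≠ 0}.ncard : ℝ) ≤ μ * r) ∧
        (∀ l : ℤ, -(K : ℤ) ≤ l → l < r →
          Lip e {x | FR h {x | ρ x = 0} r x} fun x => ρ ((h ^ l) x)) ∧
        ∀ i (j : ℕ), j < r → Lip e {x | FR h {x | ρ x = 0} r x} fun x => g i ((h ^ (j : ℤ)) x) := by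
  classical
  obtain ⟨U, hU, hUf⟩ := exists_small_cover f hη
  obtain ⟨M, T, hT, hMT⟩ := exists_window hμ hU
  obtain ⟨ι, _, w, y, hw0, hw1, hD, hy⟩ := exists_weights (h := h) hU (M + 1)
  set D : ℕ := coverDim (iterCover h U (M + 1)) + 1 with hDdef
  set Q : ℕ := M * T + 1 with hQ
  have hQ0 : (0 : ℝ) < Q := by positivity
  set P : ℕ := K + M + Q with hP
  set γ : ℝ := μ - D * (T + 1) / Q with hγ
  have hγ0 : 0 < γ := by
    rw [hγ, sub_pos, div_lt_iff₀ hQ0, hDdef, hQ]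
    push_cast
    exact hMT
  set C : ℝ := 4 + D * (4 * (2 * M + 1 + Q) + (T + 1) * (M + 1)) with hC
  obtain ⟨L₁, hL₁⟩ := exists_nat_ge (C / γ)
  obtain ⟨L₂, hL₂⟩ := exists_nat_ge (4 * (2 * K + 1) / θ)
  set L : ℕ := L₁ + L₂ + P + N₀ + 1 with hL
  have hL0 : (0 : ℝ) < L := by positivity
  have hL1 : C ≤ γ * L := by
    rw [div_le_iff₀ hγ0] at hL₁
    have : (L₁ : ℝ) ≤ L := by exact_mod_cast (by omega : L₁ ≤ L)
    nlinarith
  have hL2 : 4 * (2 * K + 1) ≤ θ * L := by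
    rw [div_le_iff₀ hθ] at hL₂
    have : (L₂ : ℝ) ≤ L := by exact_mod_cast (by omega : L₂ ≤ L)
    nlinarith
  obtain ⟨m⟩ := exists_markM hmin L
  have hI : ∀ r x, FR h {x | m.ρ x = 0} r x →
      (L : ℝ) * (m.irr x (-(P : ℤ)) (r + P)).card ≤ 4 * r := by
    intro r x hx
    have a1 := m.le_of_FR hx
    have a2 := m.irr_card (by omega) x (-(P : ℤ)) (r + 2 * P)
    have e1 : -(P : ℤ) + (r + 2 * P : ℕ) = r + P := by push_cast; ring
    rw [e1] at a2
    have a3 : L * (m.irr x (-(P : ℤ)) (r + P)).card ≤ 4 * r := by omega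
    exact_mod_cast a3
  refine ⟨m.ρ, m.R, fun i => m.app w y T M hT (f i), fun x => ⟨m.nonneg x, m.le_one x⟩, m.ret,
    fun i => m.app_near w y T M hT (f i) hη.le hw0 hw1 fun k z hz s hs => ?_, fun r =>
    ⟨fun x hx => ⟨by have := m.le_of_FR hx; omega, ?_⟩, _, inferInstance, m.par w T M P r,
      fun x hx => ?_, fun l h1 h2 => m.lip_rho w T M P r _ (by omega) (by omega),
      fun i j hj => m.lip_app w y T M hT (f i) hw0 hw1 P r (by omega) j hj⟩⟩
  · obtain ⟨V, hV, h1, h2⟩ := hy k z hz s hs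
    exact hUf V hV _ h2 _ h1 i
  · let B : Finset (Fin r) := Finset.univ.filter fun j =>
      ∃ l : ℤ, |l - (j : ℕ)| ≤ K ∧ m.ρ ((h ^ l) x) ≠ 1
    refine ⟨B, ?_, fun j hj l hl => ?_⟩
    · have a1 := card_near (B.image fun j : Fin r => ((j : ℕ) : ℤ)) (m.irr x (-(P : ℤ)) (r + P)) K
        fun i hi => by
          obtain ⟨j, hj, rfl⟩ := Finset.mem_image.1 hi
          obtain ⟨l, h1, h2⟩ := (Finset.mem_filter.1 hj).2
          have := j.2
          have h3 := abs_le.1 h1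
          exact ⟨l, m.mem_irr.2 ⟨⟨by omega, by omega⟩, h2⟩, h1⟩
      rw [Finset.card_image_of_injective _ fun j j' he => Fin.ext (by exact_mod_cast he)] at a1
      have a2 : (B.card : ℝ) ≤ (2 * K + 1) * (m.irr x (-(P : ℤ)) (r + P)).card := by
        exact_mod_cast a1
      have a3 := hI r x hx
      refine le_of_mul_le_mul_left ?_ hL0
      have a4 := mul_le_mul_of_nonneg_left a2 hL0.le
      have a5 := mul_le_mul_of_nonneg_left a3 (by positivity : (0 : ℝ) ≤ 2 * K + 1)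
      have a6 := mul_le_mul_of_nonneg_right hL2 (Nat.cast_nonneg (α := ℝ) r)
      nlinarith
    · by_contra hne
      exact hj (Finset.mem_filter.2 ⟨Finset.mem_univ _, l, hl, hne⟩)
  · have a1 := (m.par_card w T M hD P r x).trans (Nat.add_le_add_left
      (Nat.mul_le_mul_left D (m.bad_card T M P (by omega) x r)) _)
    rw [← hQ] at a1
    set I : ℕ := (m.irr x (-(P : ℤ)) (r + P)).card with hIdef
    have a2 : (({l | m.par w T M P r x l ≠ 0}.ncard : ℕ) : ℝ) ≤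
        I + D * ((2 * M + 1 + Q) * I + (T + 1) * (((r + M) / Q : ℕ) + 1)) := by exact_mod_cast a1
    have a3 : (L : ℝ) * I ≤ 4 * r := hI r x hx
    have a4 : (L : ℝ) ≤ r := by exact_mod_cast m.le_of_FR hx
    have a5 : (((r + M) / Q : ℕ) : ℝ) ≤ r / Q + M := by
      refine Nat.cast_div_le.trans ?_
      push_cast
      rw [add_div]
      have hQ1 : (1 : ℝ) ≤ Q := by exact_mod_cast (by omega : 1 ≤ Q)
      exact add_le_add le_rfl (div_le_self (Nat.cast_nonneg _) hQ1)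
    have a6 : (({l | m.par w T M P r x l ≠ 0}.ncard : ℕ) : ℝ) ≤
        I + D * ((2 * M + 1 + Q) * I + (T + 1) * (r / Q + M + 1)) := by
      refine a2.trans ?_
      gcongr
    have a7 : (L : ℝ) * (I + D * ((2 * M + 1 + Q) * I + (T + 1) * (M + 1))) ≤ C * r := by
      have b1 : (L : ℝ) * (I + D * ((2 * M + 1 + Q) * I + (T + 1) * (M + 1))) =
          (1 + D * (2 * M + 1 + Q)) * (L * I) + D * ((T + 1) * (M + 1)) * L := by ring
      have b2 : C * r = (1 + D * (2 * M + 1 + Q)) * (4 * r) + D * ((T + 1) * (M + 1)) * r := by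
        rw [hC]; ring
      rw [b1, b2]
      gcongr
    have a8 : (I : ℝ) + D * ((2 * M + 1 + Q) * I + (T + 1) * (M + 1)) ≤ γ * r := by
      refine le_of_mul_le_mul_left (a7.trans ?_) hL0
      have := mul_le_mul_of_nonneg_right hL1 (Nat.cast_nonneg (α := ℝ) r)
      linarith
    have a9 : (I : ℝ) + D * ((2 * M + 1 + Q) * I + (T + 1) * (r / Q + M + 1)) =
        I + D * ((2 * M + 1 + Q) * I + (T + 1) * (M + 1)) + D * (T + 1) / Q * r := by ring
    rw [a9] at a6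
    rw [hγ] at a8
    linarith

end

variable {X : Type*} [TopologicalSpace X] [CompactSpace X] {h : X ≃ₜ X} {A : Type*}
  [CStarAlgebra A]

theorem exists_sysM [T2Space X] (hfree : ∀ (k : ℤ) (x : X), k ≠ 0 → (h ^ k) x ≠ x)
    (hA : IsCrossedProduct h A) : Nonempty (Sys h A) := by
  obtain ⟨π, u, hπ, hu1, hu2, hcov, hd⟩ := hA
  obtain ⟨Λ, hΛ1, hΛ2⟩ := exists_lam hfree hπ hu1 hu2 hcov hd
  let U : Aˣ := ⟨u, star u, hu2, hu1⟩
  let ι : CrossedProduct h →⋆ₐ[ℂ] OpX X := (crossedProductAlg h).subtype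
  have hU : star (U : A) = ((U⁻¹ : Aˣ) : A) := rfl
  have hc : ∀ f, (U : A) * π f = π (powComp h (-1) f) * U := by
    intro f
    have e1 : powComp h (-1) f = f.comp (h.symm : C(X, X)) := by
      ext x
      rw [powComp_apply, zpow_neg_one]
      rfl
    rw [e1, ← hcov f, mul_assoc]
    change u * π f = u * π f * (star u * u)
    rw [hu1, mul_one]
  have h1 : ∀ j x, (ι.comp Λ) u (dvec j x) = (dvec (j + 1) x : Ell2 X) := by
    intro j x
    change toOp (Λ u) (dvec j x) = _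
    rw [hΛ2, toOp_uElt, shiftOp_dvec]
  have h2 : ∀ j x, (ι.comp Λ) (star u) (dvec j x) = (dvec (j - 1) x : Ell2 X) := by
    intro j x
    change toOp (Λ (star u)) (dvec j x) = _
    rw [map_star, hΛ2, toOp_star, toOp_uElt, star_shift_dvec]
  refine ⟨⟨π, U, ι.comp Λ, hU, hc, hd.mono fun b hb => mem_monSpan hc hU hb, fun f j x => ?_,
    fun k j x => ?_⟩⟩
  · change toOp (Λ (π f)) (dvec j x) = _
    rw [hΛ1, toOp_piHom, multOp_dvec]
  · induction k using Int.induction_on generalizing j with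
    | zero => simp
    | succ k ih =>
      rw [zpow_add_one, Units.val_mul, map_mul]
      change (ι.comp Λ) _ ((ι.comp Λ) u (dvec j x)) = _
      rw [h1, ih]
      congr 1
      ring
    | pred k ih =>
      rw [zpow_sub_one, Units.val_mul, map_mul]
      change (ι.comp Λ) _ ((ι.comp Λ) (star u) (dvec j x)) = _
      rw [h2, ih]
      congr 1
      ring

variable [PartialOrder A] [StarOrderedRing A]

theorem exists_gapM (s : Sys h A) {n m : ℕ} {a : CStarMatrix (Fin n) (Fin n) A}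
    {b : CStarMatrix (Fin m) (Fin m) A} (ha : 0 ≤ a) (hb : 0 ≤ b) {r₀ : ℝ}
    (H : ∀ τ : TracialState A, dTau τ a + r₀ < dTau τ b) {ε : ℝ} (hε : 0 < ε) :
    ∃ δ : ℝ, 0 < δ ∧ ∃ N₀ : ℕ, ∀ N, N₀ ≤ N → ∀ x,
      (Matrix.trace (s.blk x N (cfc (fa ε) a))).re + (r₀ + δ) * N <
        (Matrix.trace (s.blk x N (cfc (gb δ) b))).re := by
  by_contra hn
  push Not at hn
  have h1 := fun j : ℕ => hn (1 / ((j : ℝ) + 1)) (by positivity) (j + 1)
  choose N hN x hx using h1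
  obtain ⟨τ, hτ⟩ := s.exists_trace x N hN
  have hlim : ∀ {k : ℕ} (c : CStarMatrix (Fin k) (Fin k) A),
      Tendsto (fun j => (∑ i, s.avg (x j) (N j) (c i i)).re) (hyperfilter ℕ) (𝓝 (traceEval τ c)) :=
    fun c => (Complex.continuous_re.tendsto _).comp (tendsto_finsetSum _ fun i _ => hτ _)
  have h2 : dTau τ b ≤ traceEval τ (cfc (fa ε) a) + r₀ := by
    refine dTau_le_of τ hb fun δ hδ => ?_
    have a0 : Tendsto (fun j : ℕ => r₀ + 1 / ((j : ℝ) + 1)) (hyperfilter ℕ) (𝓝 r₀) := by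
      have := (tendsto_one_div_add_atTop_nhds_zero_nat (𝕜 := ℝ)).const_add r₀
      rw [add_zero] at this
      exact this.mono_left Nat.hyperfilter_le_atTop
    refine le_of_tendsto_of_tendsto (hlim _) ((hlim _).add a0) ?_
    have a1 : ∀ᶠ j : ℕ in atTop, 1 / ((j : ℝ) + 1) < δ :=
      (tendsto_one_div_add_atTop_nhds_zero_nat (𝕜 := ℝ)).eventually (gt_mem_nhds hδ)
    filter_upwards [Nat.hyperfilter_le_atTop a1] with j hj
    have hN0 : 0 < N j := by have := hN j; omega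
    have a2 := (Complex.nonneg_iff.1 (s.blk_posSemidef (x j) (N j)
      (sub_nonneg.2 (gb_mono hb (by positivity) (le_of_lt hj)))).trace_nonneg).1
    rw [map_sub, Matrix.trace_sub, Complex.sub_re] at a2
    have a3 := hx j
    have a4 : (Matrix.trace (s.blk (x j) (N j) (cfc (gb δ) b))).re ≤
        (Matrix.trace (s.blk (x j) (N j) (cfc (fa ε) a))).re +
          (r₀ + 1 / ((j : ℝ) + 1)) * N j := by linarith
    rw [s.trace_blk_eq _ hN0, s.trace_blk_eq _ hN0] at a4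
    have a5 : (0 : ℝ) < N j := by exact_mod_cast hN0
    refine le_of_mul_le_mul_left ?_ a5
    linarith
  have h3 := fa_le_dTau τ ha hε
  have h4 := H τ
  linarith

open Matrix Vale.Agent.P093Z.Sys in
theorem le_add_epsM (s : Sys h A) [T2Space X] [Nonempty X] (hmin : Markers h) {r₁ : ℝ}
    (hr₁ : 0 ≤ r₁) (hμ₁ : meanDim h ≤ ENNReal.ofReal (2 * r₁)) {n m : ℕ}
    {a : CStarMatrix (Fin n) (Fin n) A} {b : CStarMatrix (Fin m) (Fin m) A} (ha : 0 ≤ a)
    (hb : 0 ≤ b) (H : ∀ τ : TracialState A, dTau τ a + r₁ < dTau τ b) {ε : ℝ} (hε : 0 < ε) :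
    ∃ y : CStarMatrix (Fin m) (Fin n) A,
      a ≤ y.conjTranspose * b * y + algebraMap ℝ _ (6 * ε) := by
  have has : IsSelfAdjoint a := IsSelfAdjoint.of_nonneg ha
  have hbs : IsSelfAdjoint b := IsSelfAdjoint.of_nonneg hb
  obtain ⟨δ, hδ, N₀, hgap⟩ := exists_gapM s ha hb H hε
  obtain ⟨r₀, hr₀⟩ : ∃ r₀, r₀ = r₁ + δ := ⟨_, rfl⟩
  obtain ⟨μ, hμe⟩ : ∃ μ, μ = 2 * r₁ + δ := ⟨_, rfl⟩
  rw [← hr₀] at hgap
  have hμ0 : 0 ≤ μ := by linarith
  have hr : μ < 2 * r₀ := by linarith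
  have hμ : meanDim h < ENNReal.ofReal μ :=
    hμ₁.trans_lt ((ENNReal.ofReal_lt_ofReal_iff_of_nonneg (by linarith)).2 (by linarith))
  set γ : ℝ := (r₀ - μ / 2) / 2 with hγ
  have hγ0 : 0 < γ := by linarith
  obtain ⟨η₁, h₁, hη₁⟩ := exists_small n (6 * ‖a‖ + ε) (σ := ε ^ 2 * γ) (by positivity)
  obtain ⟨η₂, h₂, hη₂⟩ := exists_small m (2 * ‖b‖ + ε) (σ := (δ / 2) ^ 2 * γ) (by positivity)
  set η : ℝ := min (min η₁ η₂) (min ε (δ / 2)) with hη
  have hη0 : 0 < η := by positivity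
  have hηε : η ≤ ε := (min_le_right _ _).trans (min_le_left _ _)
  have hηδ : η ≤ δ / 2 := (min_le_right _ _).trans (min_le_right _ _)
  have b₁ := hη₁ η hη0 ((min_le_left _ _).trans (min_le_left _ _))
  have b₂ := hη₂ η hη0 ((min_le_left _ _).trans (min_le_right _ _))
  obtain ⟨Ka, f₁, hf₁⟩ := s.exists_bandMat a hη0
  obtain ⟨Kb, f₂, hf₂⟩ := s.exists_bandMat b hη0
  set K : ℕ := max Ka Kb with hK
  obtain ⟨ζ₁, hζ₁, hf₁⟩ := hf₁ K (le_max_left _ _)
  obtain ⟨ζ₂, hζ₂, hf₂⟩ := hf₂ K (le_max_right _ _)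
  obtain ⟨ρ, R, g, hρ, hR, hg, hP⟩ := exists_paramM hmin hμ
    (F := (Fin n × Fin n × Finset.Icc (-(K : ℤ)) K) ⊕ (Fin m × Fin m × Finset.Icc (-(K : ℤ)) K))
    (Sum.elim (fun p => f₁ p.1 p.2.1 p.2.2) fun p => f₂ p.1 p.2.1 p.2.2) (lt_min hζ₁ hζ₂)
    (2 * K) N₀ hη0
  set Y : Set X := {x | ρ x = 0} with hY
  let g₁ : Fin n → Fin n → ℤ → C(X, ℂ) := fun i j k =>
    if hk : k ∈ Finset.Icc (-(K : ℤ)) K then g (Sum.inl (i, j, ⟨k, hk⟩)) else 0
  let g₂ : Fin m → Fin m → ℤ → C(X, ℂ) := fun i j k =>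
    if hk : k ∈ Finset.Icc (-(K : ℤ)) K then g (Sum.inr (i, j, ⟨k, hk⟩)) else 0
  obtain ⟨a₁, a₂, ha₁, ha₂, c₁, c₂, c₃, c₄, c₅⟩ := s.exists_cut has (hf₁ g₁ fun i j k hk => by
    simp only [g₁, dif_pos hk]
    exact (hg (Sum.inl (i, j, ⟨k, hk⟩))).trans (min_le_left _ _)) hρ (norm_nonneg a)
  obtain ⟨b₁', b₂', hb₁, hb₂, d₁, d₂, d₃, d₄, d₅⟩ := s.exists_cut hbs (hf₂ g₂ fun i j k hk => by
    simp only [g₂, dif_pos hk]
    exact (hg (Sum.inr (i, j, ⟨k, hk⟩))).trans (min_le_right _ _)) hρ le_rfl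
  have ht : s.mon (cf ρ) 1 ∈ s.brk Y := shift_mem _ fun y hy => by
    rw [cf_apply, show ρ y = 0 from hy, Complex.ofReal_zero]
  have ma : a₂ ∈ matAlg (Fin n) (s.brk Y) := c₄ _ ht (fun _ _ => pi_mem _) fun _ _ _ _ => pi_mem _
  have mb : b₂' ∈ matAlg (Fin m) (s.brk Y) := d₄ _ ht (fun _ _ => pi_mem _) fun _ _ _ _ => pi_mem _
  set xa : CStarMatrix (Fin n) (Fin n) A := algebraMap ℝ _ (2 * ε) - a₂ with hxa
  set xb : CStarMatrix (Fin m) (Fin m) A := b₂' - algebraMap ℝ _ (δ / 2) with hxb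
  have hxas : IsSelfAdjoint xa := (IsSelfAdjoint.algebraMap _ (IsSelfAdjoint.all _)).sub ha₂
  have hxbs : IsSelfAdjoint xb := hb₂.sub (IsSelfAdjoint.algebraMap _ (IsSelfAdjoint.all _))
  obtain ⟨w, hw, hgen⟩ := exists_gen (s := s) hR hxas hxbs fun r => by
    obtain ⟨h1, Λ, _, e, h2, h3, h4⟩ := hP r
    have k1 : s.mon (cf ρ) 1 ∈ s.lipAlg Y r e := shift_mem_lip (fun y hy => by
      rw [cf_apply, show ρ y = 0 from hy, Complex.ofReal_zero])
      fun j hj => (h3 j (by omega) (by omega)).ofReal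
    have k2 : ∀ l : ℕ, l < K → s.π (powComp h (-(l : ℤ)) (cf ρ)) ∈ s.lipAlg Y r e :=
      fun l hl => pi_mem_lip fun j hj =>
        (h3 (-(l : ℤ) + j) (by omega) (by omega)).ofReal.congr fun x _ => by
          rw [powComp_apply, zpow_app, cf_apply]
    refine ⟨Λ, inferInstance, e, ⌊μ * r⌋₊, fun x hx => ⟨Nat.le_floor (h2 x hx), ?_⟩,
      sub_mem (real_mem_matAlg _ _) (c₄ _ k1 k2 fun i j k hk => ?_),
      sub_mem (d₄ _ k1 k2 fun i j k hk => ?_) (real_mem_matAlg _ _), k1⟩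
    · obtain ⟨hN, B, hB, hgood⟩ := h1 x hx
      have r0 : (0 : ℝ) ≤ r := Nat.cast_nonneg _
      have t1 := s.trace_sq_le x r (a - a₂) (C := 6 * ‖a‖ + ε) (by linarith) B
        fun j hj => c₅ x _ (hgood j hj)
      have t2 := s.trace_sq_le x r (b - b₂') (C := 2 * ‖b‖ + ε) (by linarith) B
        fun j hj => d₅ x _ (hgood j hj)
      rw [Fintype.card_fin] at t1 t2
      have t3 : (n : ℝ) ^ 2 * (η ^ 2 * r + (6 * ‖a‖ + ε) ^ 2 * B.card) ≤ ε ^ 2 * γ * r := by
        refine le_trans ?_ (mul_le_mul_of_nonneg_right b₁ r0)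
        rw [mul_assoc, add_mul, mul_assoc _ η]
        gcongr
      have t4 : (m : ℝ) ^ 2 * (η ^ 2 * r + (2 * ‖b‖ + ε) ^ 2 * B.card) ≤ (δ / 2) ^ 2 * γ * r := by
        refine le_trans ?_ (mul_le_mul_of_nonneg_right b₂ r0)
        rw [mul_assoc, add_mul, mul_assoc _ η]
        gcongr
      have u1 := (s.count_a ha ha₂ ma hx.1 hε).trans (add_le_add le_rfl (t1.trans t3))
      have u2 := (s.count_b hb hb₂ mb hx.1 hδ).trans (add_le_add le_rfl (t2.trans t4))
      rw [mul_assoc, ← mul_add] at u1 u2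
      have u3 := le_of_mul_le_mul_left u1 (by positivity)
      have u4 := le_of_mul_le_mul_left u2 (by positivity)
      have u5 := hgap r hN x
      have u6 := Nat.floor_le (mul_nonneg hμ0 r0)
      have u7 : ((⌊μ * r⌋₊ + 2 * (n * r) : ℕ) : ℝ) <
          (2 * (s.blk x r xa⁺).rank + 2 * (s.blk x r xb⁺).rank : ℕ) := by
        push_cast
        rw [hγ] at u3 u4
        linarith
      rw [Fintype.card_fin]
      exact_mod_cast u7
    · simp only [g₁, dif_pos hk]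
      exact pi_mem_lip fun j hj => h4 _ j hj
    · simp only [g₂, dif_pos hk]
      exact pi_mem_lip fun j hj => h4 _ j hj
  have mxa : xa⁺ ∈ matAlg (Fin n) (s.brk Y) := posPart_mem (sub_mem (real_mem_matAlg _ _) ma)
  have mxb : xb⁺ ∈ matAlg (Fin m) (s.brk Y) := posPart_mem (sub_mem mb (real_mem_matAlg _ _))
  have mw : ∀ i j, (xb⁺ * w) i j ∈ s.brk Y := fun i j => by
    rw [CStarMatrix.mul_apply]
    exact sum_mem fun k _ => mul_mem (mxb i k) (hw k j)
  obtain ⟨η₀, hη₀, hlow⟩ := exists_lower (s := s) (isClosed_eq ρ.continuous continuous_const) hR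
    (c := star xa⁺ * xa⁺ + (xb⁺ * w).conjTranspose * (xb⁺ * w))
    (add_nonneg (star_mul_self_nonneg _) (rect_nonneg _))
    (add_mem (mul_mem (star_mem mxa) mxa) fun i j => by
      rw [CStarMatrix.mul_apply]
      exact sum_mem fun k _ => mul_mem (star_mem (mw k i)) (mw k j)) fun r x hx ξ hξ => by
    rw [map_add, blk_mul hx.1 _ mw, blk_conjTranspose,
      show s.blk x r (star xa⁺ * xa⁺) = _ from blk_mul hx.1 _ mxa, blk_star] at hξ
    obtain ⟨k1, k2⟩ := ker_of_sum _ _ hξ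
    exact hgen r x hx ξ k1 k2
  have hsb : xb ≤ s.cutE (Fin m) ρ K * b * s.cutE (Fin m) ρ K := by
    have k1 := conj_le_add (hb₁.sub hbs) (s.cutE_sa ρ K) (s.norm_cutE hρ K)
      (η := δ / 2) (by rw [norm_sub_rev]; linarith)
    rw [hxb, d₂, zero_smul, add_zero, sub_le_iff_le_add]
    exact k1
  obtain ⟨y, hy⟩ := negPart_le hxbs (s.cutE_sa ρ K) hsb hη₀ hlow
  obtain ⟨y', hy'⟩ := rect_smul 2 zero_le_two b y
  refine ⟨y', ?_⟩
  have k1 := conj_le_add (has.sub ha₁) (s.cutE_sa ρ K) (s.norm_cutE hρ K) (c₁.trans hηε)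
  have k2 : a₂ ≤ algebraMap ℝ _ (2 * ε) + xa⁻ := by
    have := CFC.neg_negPart_le hxas
    rw [hxa, le_sub_comm, sub_neg_eq_add] at this
    exact this
  refine (le_cut ha (s.cutE_sa ρ K)).trans ?_
  have k3 : s.cutE (Fin n) ρ K * a * s.cutE (Fin n) ρ K +
      ‖a‖ • ((1 - s.cutE (Fin n) ρ K) * (1 - s.cutE (Fin n) ρ K)) ≤
      y.conjTranspose * b * y + algebraMap ℝ _ (3 * ε) := by
    calc _ ≤ a₂ + algebraMap ℝ _ ε := by
          rw [c₂, add_right_comm]
          exact add_le_add k1 le_rfl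
      _ ≤ algebraMap ℝ _ (2 * ε) + y.conjTranspose * b * y + algebraMap ℝ _ ε :=
          add_le_add (k2.trans (add_le_add le_rfl hy)) le_rfl
      _ = _ := by
          rw [show 3 * ε = 2 * ε + ε by ring, map_add]
          abel
  refine (smul_le_smul_of_nonneg_left k3 zero_le_two).trans (le_of_eq ?_)
  rw [smul_add, hy', show 6 * ε = (2 : ℝ) • (3 * ε) by rw [smul_eq_mul]; ring, Algebra.smul_def,
    ← map_mul]
  rfl

/-- **The upper bound**, attained. -/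
theorem bound_of [T2Space X] [Nonempty X] (hm : Markers h) (hA : IsCrossedProduct h A) {r : ℝ}
    (h0 : 0 ≤ r) (hr : meanDim h / 2 ≤ ENNReal.ofReal r) : IsComparisonBound A r := by
  obtain ⟨s⟩ := exists_sysM hm.has.free hA
  have h1 : meanDim h ≤ ENNReal.ofReal (2 * r) := by
    rw [ENNReal.div_le_iff two_ne_zero ENNReal.ofNat_ne_top] at hr
    rwa [mul_comm, ENNReal.ofReal_mul h0, ENNReal.ofReal_ofNat]
  refine ⟨h0, fun n m a b ha hb H => cuntz_of_le ha hb fun ε hε => ?_⟩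
  have := le_add_epsM s hm h0 h1 ha hb H (ε := ε / 6) (by positivity)
  rwa [show 6 * (ε / 6) = ε by ring] at this

end Vale.Agent.N093
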